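import Mathlib

/-!
Algebra of arrow-shaped symmetric matrices.
-/

namespace P252

open Matrix Finset

/-- the matrix with blocks `e`, `f yᵀ`, `h I + c y yᵀ` -/
def arrow {k : ℕ} (e f h c : ℝ) (y : Fin k → ℝ) : Matrix (Fin (k + 1)) (Fin (k + 1)) ℝ :=
  Matrix.of (Fin.cons (Fin.cons e (fun j => f * y j))
    (fun i => Fin.cons (f * y i) (fun j => (if i = j then h else 0) + c * y i * y j)))

variable {k : ℕ} (e f h c : ℝ) (y : Fin k → ℝ)

@[simp] lemma arrow_zero_zero : arrow e f h c y 0 0 = e := rfl
@[simp] lemma arrow_zero_succ (j : Fin k) : arrow e f h c y 0 j.succ = f * y j := rfl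
@[simp] lemma arrow_succ_zero (i : Fin k) : arrow e f h c y i.succ 0 = f * y i := rfl
@[simp] lemma arrow_succ_succ (i j : Fin k) :
    arrow e f h c y i.succ j.succ = (if i = j then h else 0) + c * y i * y j := rfl

lemma ext_fin {A B : Matrix (Fin (k + 1)) (Fin (k + 1)) ℝ} (h00 : A 0 0 = B 0 0)
    (h0s : ∀ j : Fin k, A 0 j.succ = B 0 j.succ) (hs0 : ∀ i : Fin k, A i.succ 0 = B i.succ 0)
    (hss : ∀ i j : Fin k, A i.succ j.succ = B i.succ j.succ) : A = B := by
  ext i j
  refine Fin.cases ?_ (fun i => ?_) i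
  · exact Fin.cases h00 h0s j
  · exact Fin.cases (hs0 i) (hss i) j

lemma arrow_isHermitian : (arrow e f h c y).IsHermitian := by
  unfold Matrix.IsHermitian
  refine ext_fin ?_ (fun j => ?_) (fun i => ?_) (fun i j => ?_)
  · simp [conjTranspose_apply]
  · simp [conjTranspose_apply]
  · simp [conjTranspose_apply]
  · simp only [conjTranspose_apply, arrow_succ_succ, star_trivial]
    by_cases hij : i = j
    · subst hij; rfl
    · rw [if_neg hij, if_neg (Ne.symm hij)]; ring

lemma arrow_inv_mul {q : ℝ} (hq : q = ∑ i, y i ^ 2) :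
    arrow e f h c y * arrow (h * (h + c * q)) (-(f * h)) (e * (h + c * q) - f ^ 2 * q)
      (-(c * e - f ^ 2)) y = (h * (e * (h + c * q) - f ^ 2 * q)) • (1 : Matrix _ _ ℝ) := by
  have s1 : ∑ i, y i * y i = q := by rw [hq]; exact Finset.sum_congr rfl fun i _ => by ring
  refine ext_fin ?_ (fun j => ?_) (fun i => ?_) (fun i j => ?_)
  · rw [Matrix.mul_apply, Fin.sum_univ_succ]
    simp only [arrow_zero_zero, arrow_zero_succ, arrow_succ_zero, Matrix.smul_apply,
      Matrix.one_apply_eq, smul_eq_mul]
    have : ∑ i, f * y i * (-(f * h) * y i) = -(f ^ 2 * h) * q := by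
      rw [← s1, Finset.mul_sum]; exact Finset.sum_congr rfl fun i _ => by ring
    rw [this]; ring
  · rw [Matrix.mul_apply, Fin.sum_univ_succ]
    simp only [arrow_zero_zero, arrow_zero_succ, arrow_succ_succ, Matrix.smul_apply,
      smul_eq_mul]
    rw [Matrix.one_apply_ne (by exact (Fin.succ_ne_zero j).symm)]
    have : ∑ i, f * y i * ((if i = j then (e * (h + c * q) - f ^ 2 * q) else 0)
        + -(c * e - f ^ 2) * y i * y j)
        = f * y j * (e * (h + c * q) - f ^ 2 * q) + f * (-(c * e - f ^ 2)) * y j * q := by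
      have e1 : ∀ i, f * y i * ((if i = j then (e * (h + c * q) - f ^ 2 * q) else 0)
        + -(c * e - f ^ 2) * y i * y j) =
          (if i = j then f * y i * (e * (h + c * q) - f ^ 2 * q) else 0)
          + f * (-(c * e - f ^ 2)) * y j * (y i * y i) := by
        intro i; split_ifs <;> ring
      rw [Finset.sum_congr rfl fun i _ => e1 i, Finset.sum_add_distrib, ← Finset.mul_sum, s1,
        Finset.sum_ite_eq' Finset.univ j, if_pos (Finset.mem_univ j)]
    rw [this]; ring
  · rw [Matrix.mul_apply, Fin.sum_univ_succ]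
    simp only [arrow_zero_zero, arrow_succ_zero, arrow_succ_succ, Matrix.smul_apply,
      smul_eq_mul]
    rw [Matrix.one_apply_ne (Fin.succ_ne_zero i)]
    have : ∑ j, ((if i = j then h else 0) + c * y i * y j) * (-(f * h) * y j)
        = -(f * h) * h * y i + c * y i * (-(f * h)) * q := by
      have e1 : ∀ j, ((if i = j then h else 0) + c * y i * y j) * (-(f * h) * y j) =
          (if i = j then h * (-(f * h) * y j) else 0) + c * y i * (-(f * h)) * (y j * y j) := by
        intro j; split_ifs <;> ring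
      rw [Finset.sum_congr rfl fun j _ => e1 j, Finset.sum_add_distrib, ← Finset.mul_sum, s1,
        Finset.sum_ite_eq Finset.univ i, if_pos (Finset.mem_univ i)]
      ring
    rw [this]; ring
  · rw [Matrix.mul_apply, Fin.sum_univ_succ]
    simp only [arrow_zero_succ, arrow_succ_zero, arrow_succ_succ, Matrix.smul_apply,
      smul_eq_mul]
    set D := e * (h + c * q) - f ^ 2 * q with hD
    have : ∑ l, ((if i = l then h else 0) + c * y i * y l)
        * ((if l = j then D else 0) + -(c * e - f ^ 2) * y l * y j)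
        = (if i = j then h * D else 0) + h * (-(c * e - f ^ 2)) * y i * y j + c * y i * y j * D
          + c * (-(c * e - f ^ 2)) * y i * y j * q := by
      have e1 : ∀ l, ((if i = l then h else 0) + c * y i * y l)
        * ((if l = j then D else 0) + -(c * e - f ^ 2) * y l * y j) =
          (if i = l then h * ((if l = j then D else 0) + -(c * e - f ^ 2) * y l * y j) else 0)
          + (if l = j then c * y i * y l * D else 0)
          + c * (-(c * e - f ^ 2)) * y i * y j * (y l * y l) := by
        intro l; split_ifs <;> ring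
      rw [Finset.sum_congr rfl fun l _ => e1 l, Finset.sum_add_distrib, Finset.sum_add_distrib,
        ← Finset.mul_sum, s1,
        Finset.sum_ite_eq Finset.univ i, if_pos (Finset.mem_univ i),
        Finset.sum_ite_eq' Finset.univ j, if_pos (Finset.mem_univ j)]
      split_ifs <;> ring
    rw [this]
    by_cases hij : i = j
    · subst hij
      rw [if_pos rfl, Matrix.one_apply_eq, hD]; ring
    · rw [if_neg hij, Matrix.one_apply_ne (fun hc => hij (Fin.succ_injective _ hc)), hD]; ring

lemma arrow_inv {q : ℝ} (hq : q = ∑ i, y i ^ 2) (hh : h ≠ 0)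
    (hD : e * (h + c * q) - f ^ 2 * q ≠ 0) :
    (arrow e f h c y)⁻¹ = (h * (e * (h + c * q) - f ^ 2 * q))⁻¹ •
      arrow (h * (h + c * q)) (-(f * h)) (e * (h + c * q) - f ^ 2 * q) (-(c * e - f ^ 2)) y := by
  apply Matrix.inv_eq_right_inv
  rw [Matrix.mul_smul, arrow_inv_mul e f h c y hq, smul_smul,
    inv_mul_cancel₀ (mul_ne_zero hh hD), one_smul]

lemma arrow_sum {q : ℝ} (hq : q = ∑ i, y i ^ 2) (e' f' h' c' : ℝ) :
    ∑ i, ∑ j, arrow e f h c y i j * arrow e' f' h' c' y i j
      = e * e' + 2 * (f * f') * q + h * (k * h' + c' * q) + c * (h' * q + c' * q ^ 2) := by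
  have s1 : ∑ i, y i * y i = q := by rw [hq]; exact Finset.sum_congr rfl fun i _ => by ring
  rw [Fin.sum_univ_succ, Fin.sum_univ_succ]
  have h1 : ∑ i : Fin k, arrow e f h c y 0 i.succ * arrow e' f' h' c' y 0 i.succ
      = (f * f') * q := by
    simp only [arrow_zero_succ]
    rw [← s1, Finset.mul_sum]; exact Finset.sum_congr rfl fun i _ => by ring
  have h2 : ∀ i : Fin k, ∑ j, arrow e f h c y i.succ j * arrow e' f' h' c' y i.succ j
      = f * f' * (y i * y i) + (h * h' + h * c' * (y i * y i) + c * h' * (y i * y i)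
        + c * c' * q * (y i * y i)) := by
    intro i
    rw [Fin.sum_univ_succ]
    simp only [arrow_succ_zero, arrow_succ_succ]
    have e1 : ∀ j, ((if i = j then h else 0) + c * y i * y j)
        * ((if i = j then h' else 0) + c' * y i * y j)
        = (if i = j then h * h' + h * c' * y i * y j + c * h' * y i * y j else 0)
          + c * c' * (y i * y i) * (y j * y j) := by
      intro j; split_ifs <;> ring
    rw [Finset.sum_congr rfl fun j _ => e1 j, Finset.sum_add_distrib, ← Finset.mul_sum, s1,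
        Finset.sum_ite_eq Finset.univ i, if_pos (Finset.mem_univ i)]
    ring
  rw [h1, Finset.sum_congr rfl fun i _ => h2 i]
  simp only [arrow_zero_zero, Finset.sum_add_distrib, ← Finset.mul_sum, s1, Finset.sum_const,
    Finset.card_univ, Fintype.card_fin, nsmul_eq_mul]
  ring

/-- the `(k+1) × 2` factor -/
def VV (y : Fin k → ℝ) : Matrix (Fin (k + 1)) (Fin 2) ℝ :=
  Matrix.of (Fin.cons ![1, 0] (fun i => ![0, y i]))

lemma arrow_det {q : ℝ} (hk : 1 ≤ k) (hq : q = ∑ i, y i ^ 2) (hh : h ≠ 0) :
    (arrow e f h c y).det = h ^ (k - 1) * (e * (h + c * q) - f ^ 2 * q) := by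
  have s1 : ∑ i, y i * y i = q := by rw [hq]; exact Finset.sum_congr rfl fun i _ => by ring
  have v00 : VV y 0 0 = 1 := rfl
  have v01 : VV y 0 1 = 0 := rfl
  have vs0 : ∀ i : Fin k, VV y i.succ 0 = 0 := fun _ => rfl
  have vs1 : ∀ i : Fin k, VV y i.succ 1 = y i := fun _ => rfl
  set SM : Matrix (Fin 2) (Fin 2) ℝ := !![e - h, f; f, c] with hSM
  have t00 : SM 0 0 = e - h := rfl
  have t01 : SM 0 1 = f := rfl
  have t10 : SM 1 0 = f := rfl
  have t11 : SM 1 1 = c := rfl
  have e1 : arrow e f h c y = h • (1 + VV y * (h⁻¹ • (SM * (VV y)ᵀ))) := by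
    refine ext_fin ?_ (fun j => ?_) (fun i => ?_) (fun i j => ?_)
    · simp only [Matrix.mul_apply, Fin.sum_univ_two, Matrix.smul_apply, Matrix.add_apply,
        Matrix.transpose_apply, v00, v01, vs0, vs1, t00, t01, t10, t11, Matrix.one_apply_eq,
        arrow_zero_zero, smul_eq_mul]
      field_simp
      ring
    · simp only [Matrix.mul_apply, Fin.sum_univ_two, Matrix.smul_apply, Matrix.add_apply,
        Matrix.transpose_apply, v00, v01, vs0, vs1, t00, t01, t10, t11,
        arrow_zero_succ, smul_eq_mul, Matrix.one_apply_ne (Fin.succ_ne_zero j).symm]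
      field_simp
      ring
    · simp only [Matrix.mul_apply, Fin.sum_univ_two, Matrix.smul_apply, Matrix.add_apply,
        Matrix.transpose_apply, v00, v01, vs0, vs1, t00, t01, t10, t11,
        arrow_succ_zero, smul_eq_mul, Matrix.one_apply_ne (Fin.succ_ne_zero i)]
      field_simp
      ring
    · simp only [Matrix.mul_apply, Fin.sum_univ_two, Matrix.smul_apply, Matrix.add_apply,
        Matrix.transpose_apply, v00, v01, vs0, vs1, t00, t01, t10, t11,
        arrow_succ_succ, smul_eq_mul]
      by_cases hij : i = j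
      · subst hij
        rw [if_pos rfl, Matrix.one_apply_eq]
        field_simp; ring
      · rw [if_neg hij, Matrix.one_apply_ne (fun hc => hij (Fin.succ_injective _ hc))]
        field_simp; ring
  rw [e1, Matrix.det_smul, Matrix.det_one_add_mul_comm, Matrix.det_fin_two, Fintype.card_fin]
  have hv : (VV y)ᵀ * VV y = !![1, 0; 0, q] := by
    ext i j
    fin_cases i <;> fin_cases j <;>
      simp [Matrix.mul_apply, VV, Fin.sum_univ_succ, s1]
  have e2 : (h⁻¹ • (SM * (VV y)ᵀ)) * VV y
      = h⁻¹ • !![e - h, f * q; f, c * q] := by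
    rw [Matrix.smul_mul, Matrix.mul_assoc, hv]
    congr 1
    ext i j
    fin_cases i <;> fin_cases j <;> simp [Matrix.mul_apply, Fin.sum_univ_two, hSM]
  rw [e2]
  simp only [Matrix.add_apply, Matrix.one_apply_eq, Matrix.smul_apply, Matrix.of_apply,
    Matrix.cons_val', Matrix.cons_val_zero, Matrix.cons_val_one, Matrix.cons_val_fin_one,
    smul_eq_mul, Matrix.one_apply_ne (by decide : (0 : Fin 2) ≠ 1),
    Matrix.one_apply_ne (by decide : (1 : Fin 2) ≠ 0), zero_add]
  obtain ⟨l, rfl⟩ : ∃ l, k = l + 1 := ⟨k - 1, by omega⟩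
  rw [Nat.add_sub_cancel, pow_succ, pow_succ]
  field_simp
  ring

lemma arrow_posDef {q : ℝ} (hq : q = ∑ i, y i ^ 2) (he : 0 < e) (hh : 0 < h)
    (hD : 0 < e * (h + c * q) - f ^ 2 * q) : (arrow e f h c y).PosDef := by
  refine Matrix.PosDef.of_dotProduct_mulVec_pos (arrow_isHermitian e f h c y) (fun v hv => ?_)
  have hform : star v ⬝ᵥ (arrow e f h c y *ᵥ v) = e * v 0 ^ 2 + 2 * f * v 0 * (∑ i, y i * v i.succ)
      + h * (∑ i : Fin k, v i.succ ^ 2) + c * (∑ i, y i * v i.succ) ^ 2 := by
    simp only [dotProduct, Matrix.mulVec, Pi.star_apply, star_trivial]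
    rw [Fin.sum_univ_succ, Fin.sum_univ_succ]
    simp only [arrow_zero_zero, arrow_zero_succ]
    have h2 : ∀ i : Fin k, v i.succ * ∑ j, arrow e f h c y i.succ j * v j
        = f * v 0 * (y i * v i.succ) + h * v i.succ ^ 2
          + c * (∑ j, y j * v j.succ) * (y i * v i.succ) := by
      intro i
      rw [Fin.sum_univ_succ]
      simp only [arrow_succ_zero, arrow_succ_succ]
      have e1 : ∀ j : Fin k, ((if i = j then h else 0) + c * y i * y j) * v j.succ
          = (if i = j then h * v j.succ else 0) + c * y i * (y j * v j.succ) := by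
        intro j; split_ifs <;> ring
      rw [Finset.sum_congr rfl fun j _ => e1 j, Finset.sum_add_distrib, ← Finset.mul_sum,
        Finset.sum_ite_eq Finset.univ i, if_pos (Finset.mem_univ i)]
      ring
    rw [Finset.sum_congr rfl fun i _ => h2 i]
    have h3 : ∑ i : Fin k, f * y i * v i.succ = f * ∑ i, y i * v i.succ := by
      rw [Finset.mul_sum]; exact Finset.sum_congr rfl fun i _ => by ring
    rw [h3]
    simp only [Finset.sum_add_distrib, ← Finset.mul_sum]
    ring
  rw [hform]
  set Y := ∑ i, y i * v i.succ with hY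
  set V := ∑ i : Fin k, v i.succ ^ 2 with hV
  have hCS : Y ^ 2 ≤ q * V := by
    rw [hq]; exact Finset.sum_mul_sq_le_sq_mul_sq _ _ _
  have hq0 : 0 ≤ q := by rw [hq]; positivity
  have hV0 : 0 ≤ V := by positivity
  have hne : 0 < v 0 ^ 2 ∨ 0 < V := by
    by_contra hcon
    rw [not_or, not_lt, not_lt] at hcon
    obtain ⟨c1, c2⟩ := hcon
    apply hv
    have hv0 : v 0 = 0 := by
      have : v 0 ^ 2 = 0 := le_antisymm c1 (sq_nonneg _)
      exact pow_eq_zero_iff (two_ne_zero) |>.1 this
    have hVe : V = 0 := le_antisymm c2 hV0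
    funext i
    refine Fin.cases hv0 (fun i => ?_) i
    have := (Finset.sum_eq_zero_iff_of_nonneg (fun i _ => sq_nonneg (v (Fin.succ i)))).1 hVe i
      (Finset.mem_univ i)
    exact pow_eq_zero_iff (two_ne_zero) |>.1 this
  have key : 0 < e * (e * v 0 ^ 2 + 2 * f * v 0 * Y + h * V + c * Y ^ 2) := by
    have e1 : e * (e * v 0 ^ 2 + 2 * f * v 0 * Y + h * V + c * Y ^ 2)
        = (e * v 0 + f * Y) ^ 2 + e * h * V + (e * c - f ^ 2) * Y ^ 2 := by ring
    rw [e1]
    rcases hV0.eq_or_lt with hV' | hV'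
    · have hY0 : Y ^ 2 = 0 := le_antisymm (by rw [← hV'] at hCS; simpa using hCS) (sq_nonneg _)
      have hY1 : Y = 0 := pow_eq_zero_iff (two_ne_zero) |>.1 hY0
      rw [hY1, ← hV']
      have hv0 : 0 < v 0 ^ 2 := by
        rcases hne with h1 | h1
        · exact h1
        · rw [← hV'] at h1; exact absurd h1 (lt_irrefl _)
      have : 0 < e ^ 2 * v 0 ^ 2 := by positivity
      nlinarith
    · rcases le_or_gt 0 (e * c - f ^ 2) with h1 | h1
      · have h2 : 0 < e * h * V := by positivity
        have h3 : 0 ≤ (e * c - f ^ 2) * Y ^ 2 := by positivity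
        have h4 := sq_nonneg (e * v 0 + f * Y)
        linarith
      · have h3 : (e * c - f ^ 2) * (q * V) ≤ (e * c - f ^ 2) * Y ^ 2 :=
          mul_le_mul_of_nonpos_left hCS h1.le
        have h4 := sq_nonneg (e * v 0 + f * Y)
        have h5 : 0 < (e * (h + c * q) - f ^ 2 * q) * V := by positivity
        nlinarith
  exact (mul_pos_iff_of_pos_left he).1 key

end P252
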