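import Mathlib

namespace P252

open Matrix

/-- The partial derivative of `f` in the `i`-th coordinate direction, at `x`. -/
noncomputable def pd {n : ℕ} (i : Fin n) (f : (Fin n → ℝ) → ℝ) (x : Fin n → ℝ) : ℝ :=
  lineDeriv ℝ f x (Pi.single i 1)

/-- The Hessian matrix of `u` at `x`: the entry `(i, j)` is the second derivative
`∂_i ∂_j u (x)`. -/
noncomputable def hess {n : ℕ} (u : (Fin n → ℝ) → ℝ) (x : Fin n → ℝ) :
    Matrix (Fin n) (Fin n) ℝ :=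
  Matrix.of fun i j => pd i (pd j u) x

/-- `w = (det D²u)^(-(n+1)/(n+2))`. -/
noncomputable def weight {n : ℕ} (u : (Fin n → ℝ) → ℝ) (x : Fin n → ℝ) : ℝ :=
  (hess u x).det ^ (-(((n : ℝ) + 1) / ((n : ℝ) + 2)))

/-- The affine maximal equation (AM) on all of `ℝⁿ`:
`∑_{i,j} det(D²u) (D²u)⁻¹_{ij} ∂_{ij} w = 0` with `w = (det D²u)^(-(n+1)/(n+2))`. -/
def SolvesAM {n : ℕ} (u : (Fin n → ℝ) → ℝ) : Prop :=
  ∀ x : Fin n → ℝ, ∑ i, ∑ j, (hess u x).det * (hess u x)⁻¹ i j * hess (weight u) x i j = 0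

/-- `u` is a quadratic polynomial `½ xᵀ A x + b · x + c`. -/
def IsQuadratic {n : ℕ} (u : (Fin n → ℝ) → ℝ) : Prop :=
  ∃ (A : Matrix (Fin n) (Fin n) ℝ) (b : Fin n → ℝ) (c : ℝ),
    ∀ x, u x = 1 / 2 * (x ⬝ᵥ A *ᵥ x) + b ⬝ᵥ x + c

end P252
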