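import Mathlib
import Vale.Agent.P252.Defs
import Vale.Agent.P252.Arrow

/-!
Partial derivatives of functions of `x 0` and `∑ x_i²`.
-/

namespace P252

open Matrix Finset

/-- squared length of the last `k` coordinates -/
def Q {k : ℕ} (x : Fin (k + 1) → ℝ) : ℝ := ∑ i : Fin k, x i.succ ^ 2

variable {k : ℕ}

lemma Q_nonneg (x : Fin (k + 1) → ℝ) : 0 ≤ Q x := by unfold Q; positivity

lemma move_zero_zero (x : Fin (k + 1) → ℝ) (s : ℝ) :
    (x + s • (Pi.single 0 1 : Fin (k + 1) → ℝ)) 0 = x 0 + s := by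
  simp

lemma move_zero_succ (x : Fin (k + 1) → ℝ) (s : ℝ) (j : Fin k) :
    (x + s • (Pi.single 0 1 : Fin (k + 1) → ℝ)) j.succ = x j.succ := by
  simp [Pi.single_apply]

lemma move_succ_zero (x : Fin (k + 1) → ℝ) (s : ℝ) (i : Fin k) :
    (x + s • (Pi.single i.succ 1 : Fin (k + 1) → ℝ)) 0 = x 0 := by
  simp [Pi.single_apply, (Fin.succ_ne_zero i).symm]

lemma move_succ_succ (x : Fin (k + 1) → ℝ) (s : ℝ) (i j : Fin k) :
    (x + s • (Pi.single i.succ 1 : Fin (k + 1) → ℝ)) j.succ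
      = x j.succ + if i = j then s else 0 := by
  by_cases hij : i = j
  · subst hij; simp
  · have : j.succ ≠ i.succ := fun hc => hij (Fin.succ_injective _ hc).symm
    simp [Pi.single_apply, this, hij]

lemma Q_zero (x : Fin (k + 1) → ℝ) (s : ℝ) :
    Q (x + s • (Pi.single 0 1 : Fin (k + 1) → ℝ)) = Q x := by
  unfold Q
  exact Finset.sum_congr rfl fun j _ => by rw [move_zero_succ]

lemma Q_succ (x : Fin (k + 1) → ℝ) (s : ℝ) (i : Fin k) :
    Q (x + s • (Pi.single i.succ 1 : Fin (k + 1) → ℝ)) = Q x + (2 * x i.succ * s + s ^ 2) := by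
  unfold Q
  have e1 : ∀ j : Fin k, (x + s • (Pi.single i.succ 1 : Fin (k + 1) → ℝ)) j.succ ^ 2
      = x j.succ ^ 2 + if i = j then 2 * x j.succ * s + s ^ 2 else 0 := by
    intro j
    rw [move_succ_succ]
    split_ifs <;> ring
  rw [Finset.sum_congr rfl fun j _ => e1 j, Finset.sum_add_distrib,
    Finset.sum_ite_eq Finset.univ i, if_pos (Finset.mem_univ i)]

lemma line_t {F : ℝ → ℝ → ℝ} {x : Fin (k + 1) → ℝ} {F' : ℝ}
    (h : HasDerivAt (fun t => F t (Q x)) F' (x 0)) :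
    HasDerivAt (fun s : ℝ => F ((x + s • (Pi.single 0 1 : Fin (k + 1) → ℝ)) 0)
      (Q (x + s • (Pi.single 0 1 : Fin (k + 1) → ℝ)))) F' 0 := by
  have e : (fun s : ℝ => F ((x + s • (Pi.single 0 1 : Fin (k + 1) → ℝ)) 0)
      (Q (x + s • (Pi.single 0 1 : Fin (k + 1) → ℝ)))) = fun s => F (x 0 + s) (Q x) := by
    funext s; rw [move_zero_zero, Q_zero]
  rw [e]
  have h0 : HasDerivAt (fun t => F t (Q x)) F' (x 0 + 0) := by rw [add_zero]; exact h
  exact HasDerivAt.comp_const_add (x 0) 0 h0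

lemma line_q {F : ℝ → ℝ → ℝ} {x : Fin (k + 1) → ℝ} {F' : ℝ} (i : Fin k)
    (h : HasDerivAt (fun q => F (x 0) q) F' (Q x)) :
    HasDerivAt (fun s : ℝ => F ((x + s • (Pi.single i.succ 1 : Fin (k + 1) → ℝ)) 0)
      (Q (x + s • (Pi.single i.succ 1 : Fin (k + 1) → ℝ)))) (2 * x i.succ * F') 0 := by
  have e : (fun s : ℝ => F ((x + s • (Pi.single i.succ 1 : Fin (k + 1) → ℝ)) 0)
      (Q (x + s • (Pi.single i.succ 1 : Fin (k + 1) → ℝ))))
      = fun s => F (x 0) (Q x + (2 * x i.succ * s + s ^ 2)) := by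
    funext s; rw [move_succ_zero, Q_succ]
  rw [e]
  have hin : HasDerivAt (fun s : ℝ => Q x + (2 * x i.succ * s + s ^ 2)) (2 * x i.succ) 0 := by
    have h1 := (((hasDerivAt_id (0 : ℝ)).const_mul (2 * x i.succ)).add
      (hasDerivAt_pow 2 (0 : ℝ))).const_add (Q x)
    refine h1.congr_deriv ?_
    simp
  have h0 : HasDerivAt (fun q => F (x 0) q) F' (Q x + (2 * x i.succ * 0 + 0 ^ 2)) := by
    have : Q x + (2 * x i.succ * 0 + 0 ^ 2) = Q x := by ring
    rw [this]; exact h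
  have h2 := HasDerivAt.comp (0 : ℝ) h0 hin
  refine h2.congr_deriv ?_
  ring

lemma pd_zero {F : ℝ → ℝ → ℝ} {x : Fin (k + 1) → ℝ} {F' : ℝ}
    (h : HasDerivAt (fun t => F t (Q x)) F' (x 0)) :
    pd 0 (fun x => F (x 0) (Q x)) x = F' := by
  unfold pd lineDeriv
  exact (line_t h).deriv

lemma pd_succ {F : ℝ → ℝ → ℝ} {x : Fin (k + 1) → ℝ} {F' : ℝ} (i : Fin k)
    (h : HasDerivAt (fun q => F (x 0) q) F' (Q x)) :
    pd i.succ (fun x => F (x 0) (Q x)) x = 2 * x i.succ * F' := by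
  unfold pd lineDeriv
  exact (line_q i h).deriv

lemma pd_zero_mul {F : ℝ → ℝ → ℝ} {x : Fin (k + 1) → ℝ} {F' : ℝ} (j : Fin k)
    (h : HasDerivAt (fun t => F t (Q x)) F' (x 0)) :
    pd 0 (fun x : Fin (k + 1) → ℝ => 2 * x j.succ * F (x 0) (Q x)) x = 2 * x j.succ * F' := by
  unfold pd lineDeriv
  have e : (fun s : ℝ => 2 * (x + s • (Pi.single 0 1 : Fin (k + 1) → ℝ)) j.succ *
      F ((x + s • (Pi.single 0 1 : Fin (k + 1) → ℝ)) 0)
      (Q (x + s • (Pi.single 0 1 : Fin (k + 1) → ℝ)))) = fun s => 2 * x j.succ *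
      F ((x + s • (Pi.single 0 1 : Fin (k + 1) → ℝ)) 0)
      (Q (x + s • (Pi.single 0 1 : Fin (k + 1) → ℝ))) := by
    funext s; rw [move_zero_succ]
  rw [e]
  exact ((line_t h).const_mul (2 * x j.succ)).deriv

lemma pd_succ_mul {F : ℝ → ℝ → ℝ} {x : Fin (k + 1) → ℝ} {F' : ℝ} (i j : Fin k)
    (h : HasDerivAt (fun q => F (x 0) q) F' (Q x)) :
    pd i.succ (fun x : Fin (k + 1) → ℝ => 2 * x j.succ * F (x 0) (Q x)) x
      = (if i = j then 2 * F (x 0) (Q x) else 0) + 4 * F' * x i.succ * x j.succ := by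
  unfold pd lineDeriv
  have e : (fun s : ℝ => 2 * (x + s • (Pi.single i.succ 1 : Fin (k + 1) → ℝ)) j.succ *
      F ((x + s • (Pi.single i.succ 1 : Fin (k + 1) → ℝ)) 0)
      (Q (x + s • (Pi.single i.succ 1 : Fin (k + 1) → ℝ))))
      = fun s => 2 * (x j.succ + if i = j then s else 0) *
      F ((x + s • (Pi.single i.succ 1 : Fin (k + 1) → ℝ)) 0)
      (Q (x + s • (Pi.single i.succ 1 : Fin (k + 1) → ℝ))) := by
    funext s; rw [move_succ_succ]
  rw [e]
  have hl : HasDerivAt (fun s : ℝ => 2 * (x j.succ + if i = j then s else 0))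
      (if i = j then 2 else 0) 0 := by
    by_cases hij : i = j
    · simp only [if_pos hij]
      have := ((hasDerivAt_id (0 : ℝ)).const_add (x j.succ)).const_mul 2
      refine this.congr_deriv (by ring)
    · simp only [if_neg hij]
      exact hasDerivAt_const _ _
  have h2 := (hl.mul (line_q i h)).deriv
  have h3 : (fun s : ℝ => 2 * (x j.succ + if i = j then s else 0) *
      F ((x + s • (Pi.single i.succ 1 : Fin (k + 1) → ℝ)) 0)
      (Q (x + s • (Pi.single i.succ 1 : Fin (k + 1) → ℝ))))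
      = ((fun s : ℝ => 2 * (x j.succ + if i = j then s else 0)) *
      fun s : ℝ => F ((x + s • (Pi.single i.succ 1 : Fin (k + 1) → ℝ)) 0)
      (Q (x + s • (Pi.single i.succ 1 : Fin (k + 1) → ℝ)))) := rfl
  rw [h3, h2]
  simp only [zero_smul, add_zero]
  split_ifs <;> ring

/-- The Hessian of a function of `x 0` and `Q x` is an arrow matrix. -/
theorem hess_eq_arrow (F Ft Fq Ftt Ftq Fqq : ℝ → ℝ → ℝ)
    (h1 : ∀ t q, 0 ≤ q → HasDerivAt (fun t => F t q) (Ft t q) t)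
    (h2 : ∀ t q, 0 ≤ q → HasDerivAt (fun q => F t q) (Fq t q) q)
    (h3 : ∀ t q, 0 ≤ q → HasDerivAt (fun t => Ft t q) (Ftt t q) t)
    (h4 : ∀ t q, 0 ≤ q → HasDerivAt (fun q => Ft t q) (Ftq t q) q)
    (h5 : ∀ t q, 0 ≤ q → HasDerivAt (fun t => Fq t q) (Ftq t q) t)
    (h6 : ∀ t q, 0 ≤ q → HasDerivAt (fun q => Fq t q) (Fqq t q) q) (x : Fin (k + 1) → ℝ) :
    hess (fun x : Fin (k + 1) → ℝ => F (x 0) (Q x)) x
      = arrow (Ftt (x 0) (Q x)) (2 * Ftq (x 0) (Q x)) (2 * Fq (x 0) (Q x))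
        (4 * Fqq (x 0) (Q x)) (fun i => x i.succ) := by
  have p0 : pd 0 (fun x : Fin (k + 1) → ℝ => F (x 0) (Q x)) = fun x => Ft (x 0) (Q x) := by
    funext y; exact pd_zero (h1 _ _ (Q_nonneg y))
  have ps : ∀ j : Fin k, pd j.succ (fun x : Fin (k + 1) → ℝ => F (x 0) (Q x))
      = fun x => 2 * x j.succ * Fq (x 0) (Q x) := by
    intro j; funext y; exact pd_succ j (h2 _ _ (Q_nonneg y))
  refine ext_fin ?_ (fun j => ?_) (fun i => ?_) (fun i j => ?_)
  · simp only [hess, Matrix.of_apply, arrow_zero_zero]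
    rw [p0]; exact pd_zero (h3 _ _ (Q_nonneg x))
  · simp only [hess, Matrix.of_apply, arrow_zero_succ]
    rw [ps, pd_zero_mul j (h5 _ _ (Q_nonneg x))]; ring
  · simp only [hess, Matrix.of_apply, arrow_succ_zero]
    rw [p0, pd_succ i (h4 _ _ (Q_nonneg x))]; ring
  · simp only [hess, Matrix.of_apply, arrow_succ_succ]
    rw [ps, pd_succ_mul i j (h6 _ _ (Q_nonneg x))]

end P252
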