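import Mathlib

/-!
Global solution of the autonomous system inside a trapping box.
-/

namespace P252

open Set Metric NNReal

theorem global_flow {E : Type*} [NormedAddCommGroup E] [NormedSpace ℝ E] [CompleteSpace E]
    (F : E → E) (K L : ℝ≥0) (hF : LipschitzWith K F) (hb : ∀ x, ‖F x‖ ≤ L) (x₀ : E) :
    ∃ Y : ℝ → E, Y 0 = x₀ ∧ ∀ t, HasDerivAt Y (F (Y t)) t := by
  have loc : ∀ n : ℕ, ∃ Y : ℝ → E, Y 0 = x₀ ∧
      ∀ t ∈ Ioo (-((n : ℝ) + 1)) ((n : ℝ) + 1), HasDerivAt Y (F (Y t)) t := by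
    intro n
    have hmem : (0 : ℝ) ∈ Icc (-((n : ℝ) + 1)) ((n : ℝ) + 1) := by
      have : (0 : ℝ) ≤ (n : ℝ) := Nat.cast_nonneg n
      constructor <;> linarith
    have hPL : IsPicardLindelof (fun _ => F) (tmin := -((n : ℝ) + 1)) (tmax := (n : ℝ) + 1)
        ⟨0, hmem⟩ x₀ (L * ((n : ℝ≥0) + 1)) 0 L K :=
      IsPicardLindelof.of_time_independent (fun x _ => hb x) hF.lipschitzOnWith
        (by push_cast; simp)
    obtain ⟨Y, h0, hY⟩ := hPL.exists_eq_forall_mem_Icc_hasDerivWithinAt₀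
    exact ⟨Y, h0, fun t ht => (hY t (Ioo_subset_Icc_self ht)).hasDerivAt
      (Icc_mem_nhds ht.1 ht.2)⟩
  choose Y h0 hY using loc
  have uniq : ∀ n k : ℕ, n ≤ k → EqOn (Y n) (Y k) (Ioo (-((n : ℝ) + 1)) ((n : ℝ) + 1)) := by
    intro n k hnk
    have hnk' : (n : ℝ) ≤ (k : ℝ) := by exact_mod_cast hnk
    have hn0 : (0 : ℝ) ≤ (n : ℝ) := Nat.cast_nonneg n
    refine ODE_solution_unique_of_mem_Ioo (v := fun _ => F) (s := fun _ => univ) (t₀ := 0)
      (K := K) (fun t _ => hF.lipschitzOnWith) ⟨by linarith, by linarith⟩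
      (fun t ht => ⟨hY n t ht, trivial⟩) (fun t ht => ⟨hY k t ?_, trivial⟩) ?_
    · exact ⟨by linarith [ht.1], by linarith [ht.2]⟩
    · rw [h0, h0]
  refine ⟨fun t => Y ⌈|t|⌉₊ t, ?_, fun t => ?_⟩
  · simp [h0]
  · -- choose a common index near `t`
    set N : ℕ := ⌈|t|⌉₊ + 1 with hN
    have hceil : |t| ≤ (⌈|t|⌉₊ : ℝ) := Nat.le_ceil _
    have hev : (fun s => Y ⌈|s|⌉₊ s) =ᶠ[nhds t] Y N := by
      have hopen : {s : ℝ | |s| < (⌈|t|⌉₊ : ℝ) + 1} ∈ nhds t := by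
        apply IsOpen.mem_nhds
        · exact isOpen_lt continuous_abs continuous_const
        · show |t| < (⌈|t|⌉₊ : ℝ) + 1
          linarith
      filter_upwards [hopen] with s hs
      have hs' : |s| < (⌈|t|⌉₊ : ℝ) + 1 := hs
      have h1 : ⌈|s|⌉₊ ≤ N := by
        rw [hN, Nat.ceil_le]; push_cast; linarith
      have h2 : s ∈ Ioo (-((⌈|s|⌉₊ : ℝ) + 1)) ((⌈|s|⌉₊ : ℝ) + 1) := by
        have := Nat.le_ceil |s|
        constructor
        · linarith [neg_abs_le s]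
        · linarith [le_abs_self s]
      exact uniq _ _ h1 h2
    have htN : t ∈ Ioo (-((N : ℝ) + 1)) ((N : ℝ) + 1) := by
      rw [hN]; push_cast
      have := abs_le.1 hceil
      constructor <;> linarith [this.1, this.2]
    have hval : Y ⌈|t|⌉₊ t = Y N t := hev.self_of_nhds
    have := hY N t htN
    show HasDerivAt _ (F (Y ⌈|t|⌉₊ t)) t
    rw [hval]
    exact this.congr_of_eventuallyEq hev

lemma barrier_le {f f' : ℝ → ℝ} {c : ℝ} (hf : ∀ t, HasDerivAt f (f' t) t)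
    (h : ∀ t, c < f t → f' t ≤ 0) (h0 : f 0 ≤ c) : ∀ t, 0 ≤ t → f t ≤ c := by
  intro t ht
  refine le_of_forall_pos_le_add (fun δ hδ => ?_)
  set ε := δ / (1 + t) with hε
  have hε0 : 0 < ε := by positivity
  have key := image_le_of_deriv_right_lt_deriv_boundary (f := f) (f' := f') (a := 0) (b := t)
    (HasDerivAt.continuousOn fun x _ => hf x) (fun x _ => (hf x).hasDerivWithinAt)
    (B := fun s => c + ε * (1 + s)) (B' := fun _ => ε) (by
      show f 0 ≤ c + ε * (1 + 0)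
      nlinarith)
    (fun x => by
      have := ((hasDerivAt_id x).const_add 1).const_mul ε
      have h2 := this.const_add c
      simpa using h2)
    (fun x hx hxe => by
      have h1 : c < f x := by
        rw [hxe]
        have : 0 < ε * (1 + x) := mul_pos hε0 (by linarith [hx.1])
        linarith
      linarith [h x h1])
    (⟨ht, le_rfl⟩ : t ∈ Icc 0 t)
  have h2 : ε * (1 + t) = δ := by rw [hε]; field_simp
  linarith

lemma barrier_ge {f f' : ℝ → ℝ} {c : ℝ} (hf : ∀ t, HasDerivAt f (f' t) t)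
    (h : ∀ t, f t < c → 0 ≤ f' t) (h0 : c ≤ f 0) : ∀ t, 0 ≤ t → c ≤ f t := by
  intro t ht
  have := barrier_le (f := fun t => - f t) (f' := fun t => - f' t) (c := -c)
    (fun t => (hf t).neg) (fun t ht => by
      have := h t (by linarith); linarith) (by linarith) t ht
  linarith

lemma pos_of_deriv {f f' : ℝ → ℝ} {K : ℝ} (hf : ∀ t, 0 ≤ t → HasDerivAt f (f' t) t)
    (h : ∀ t, 0 ≤ t → - K * f t ≤ f' t) (h0 : 0 < f 0) : ∀ t, 0 ≤ t → 0 < f t := by
  intro t ht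
  have hmono : MonotoneOn (fun s => f s * Real.exp (K * s)) (Ici 0) := by
    apply monotoneOn_of_deriv_nonneg (convex_Ici 0)
    · refine HasDerivAt.continuousOn (f' := fun s => f' s * Real.exp (K * s)
        + f s * (Real.exp (K * s) * K)) (fun s hs => ?_)
      exact (hf s hs).mul (by simpa using ((hasDerivAt_id s).const_mul K).exp)
    · intro s hs
      rw [interior_Ici] at hs
      have hd : HasDerivAt (fun s => f s * Real.exp (K * s)) (f' s * Real.exp (K * s)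
        + f s * (Real.exp (K * s) * K)) s :=
        (hf s (le_of_lt hs)).mul (by simpa using ((hasDerivAt_id s).const_mul K).exp)
      exact hd.differentiableAt.differentiableWithinAt
    · intro s hs
      rw [interior_Ici] at hs
      have hd : HasDerivAt (fun s => f s * Real.exp (K * s)) (f' s * Real.exp (K * s)
        + f s * (Real.exp (K * s) * K)) s :=
        (hf s (le_of_lt hs)).mul (by simpa using ((hasDerivAt_id s).const_mul K).exp)
      rw [hd.deriv]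
      have h1 := h s (le_of_lt hs)
      have h2 := Real.exp_pos (K * s)
      nlinarith
  have h1 := hmono (mem_Ici.2 le_rfl) (show t ∈ Ici (0 : ℝ) from ht) ht
  simp only [mul_zero, Real.exp_zero, mul_one] at h1
  have h2 := Real.exp_pos (K * t)
  by_contra hcon
  have h3 : f t ≤ 0 := not_lt.1 hcon
  nlinarith [mul_nonneg (neg_nonneg.2 h3) h2.le]

/-- the bound for `R` -/
noncomputable def Gam (m : ℝ) : ℝ := (m + 2) * (5 * m - 9) / (7 * (m + 3))

noncomputable def F1 (a b : ℝ) : ℝ := a * (1 + b - a) / 2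
noncomputable def F2 (m a b R : ℝ) : ℝ :=
  b * (a + m * (1 - b) + (m + 3) / (m + 2) * (R * b)) / 2
noncomputable def F3 (m a b R : ℝ) : ℝ :=
  ((m + 2) * a - R * ((m - 1) + a - b + R * b / (m + 2))) / 2

/-- clamp -/
noncomputable def cl (c x : ℝ) : ℝ := max 0 (min c x)

lemma cl_lip (c : ℝ) : LipschitzWith 1 (cl c) := by
  unfold cl
  exact (LipschitzWith.id.const_min c).const_max 0

lemma cl_nonneg (c x : ℝ) : 0 ≤ cl c x := le_max_left _ _
lemma cl_le {c : ℝ} (hc : 0 ≤ c) (x : ℝ) : cl c x ≤ c := max_le hc (min_le_left _ _)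
lemma cl_of_mem {c x : ℝ} (h0 : 0 ≤ x) (h1 : x ≤ c) : cl c x = x := by
  unfold cl; rw [min_eq_right h1, max_eq_right h0]
lemma cl_of_lt {c x : ℝ} (hc : 0 ≤ c) (h1 : c < x) : cl c x = c := by
  unfold cl; rw [min_eq_left h1.le, max_eq_right hc]
lemma cl_of_neg {c x : ℝ} (hc : 0 ≤ c) (h1 : x < 0) : cl c x = 0 := by
  unfold cl; rw [min_eq_right (by linarith), max_eq_left h1.le]

/-- the polynomial field -/
noncomputable def FF (m : ℝ) (Y : ℝ × ℝ × ℝ) : ℝ × ℝ × ℝ :=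
  (F1 Y.1 Y.2.1, F2 m Y.1 Y.2.1 Y.2.2, F3 m Y.1 Y.2.1 Y.2.2)

noncomputable def clamp (m : ℝ) (Y : ℝ × ℝ × ℝ) : ℝ × ℝ × ℝ :=
  (cl (9 / 2) Y.1, cl (7 / 2) Y.2.1, cl (Gam m) Y.2.2)

lemma clamp_lip (m : ℝ) : LipschitzWith 1 (clamp m) := by
  unfold clamp
  have h1 : LipschitzWith 1 (fun Y : ℝ × ℝ × ℝ => cl (9 / 2) Y.1) := by
    have h := (cl_lip (9 / 2)).comp (LipschitzWith.prod_fst (α := ℝ) (β := ℝ × ℝ))
    rw [one_mul] at h
    exact h
  have h2 : LipschitzWith 1 (fun Y : ℝ × ℝ × ℝ => cl (7 / 2) Y.2.1) := by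
    have h := (cl_lip (7 / 2)).comp ((LipschitzWith.prod_fst (α := ℝ) (β := ℝ)).comp
      (LipschitzWith.prod_snd (α := ℝ) (β := ℝ × ℝ)))
    rw [one_mul, one_mul] at h
    exact h
  have h3 : LipschitzWith 1 (fun Y : ℝ × ℝ × ℝ => cl (Gam m) Y.2.2) := by
    have h := (cl_lip (Gam m)).comp ((LipschitzWith.prod_snd (α := ℝ) (β := ℝ)).comp
      (LipschitzWith.prod_snd (α := ℝ) (β := ℝ × ℝ)))
    rw [one_mul, one_mul] at h
    exact h
  have h := h1.prodMk (h2.prodMk h3)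
  rw [max_self, max_self] at h
  exact h

lemma FF_contDiff (m : ℝ) : ContDiff ℝ 1 (FF m) := by
  unfold FF F1 F2 F3
  fun_prop

lemma Gam_pos {m : ℝ} (hm : 9 ≤ m) : 0 < Gam m := by
  unfold Gam
  apply div_pos
  · apply mul_pos <;> linarith
  · linarith

theorem field_bounds (m : ℝ) (hm : 9 ≤ m) :
    ∃ K L : ℝ≥0, LipschitzWith K (fun Y => FF m (clamp m Y)) ∧
      ∀ Y, ‖FF m (clamp m Y)‖ ≤ L := by
  set s : Set (ℝ × ℝ × ℝ) := Icc (0 : ℝ) (9 / 2) ×ˢ (Icc (0 : ℝ) (7 / 2) ×ˢ Icc (0 : ℝ) (Gam m))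
    with hs
  have hcomp : IsCompact s := isCompact_Icc.prod (isCompact_Icc.prod isCompact_Icc)
  have hmem : ∀ Y, clamp m Y ∈ s := fun Y =>
    ⟨⟨cl_nonneg _ _, cl_le (by norm_num) _⟩, ⟨cl_nonneg _ _, cl_le (by norm_num) _⟩,
      ⟨cl_nonneg _ _, cl_le (Gam_pos hm).le _⟩⟩
  obtain ⟨K, hK⟩ := LocallyLipschitzOn.exists_lipschitzOnWith_of_compact hcomp
    ((FF_contDiff m).locallyLipschitz.locallyLipschitzOn (s := s))
  obtain ⟨C, hC⟩ := hcomp.exists_bound_of_continuousOn (FF_contDiff m).continuous.continuousOn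
  refine ⟨K, Real.toNNReal C, ?_, fun Y => ?_⟩
  · intro Y Z
    have h1 := hK (hmem Y) (hmem Z)
    have h2 := clamp_lip m Y Z
    calc edist (FF m (clamp m Y)) (FF m (clamp m Z)) ≤ K * edist (clamp m Y) (clamp m Z) := h1
      _ ≤ K * edist Y Z := by
          gcongr
          simpa using h2
  · exact (hC _ (hmem Y)).trans (Real.le_coe_toNNReal C)

theorem flow_exists (m : ℝ) (hm : 9 ≤ m) (a0 b0 R0 : ℝ) (ha : 0 < a0) (ha' : a0 ≤ 9 / 2)
    (hb : 0 < b0) (hb' : b0 ≤ 7 / 2) (hR : 0 ≤ R0) (hR' : R0 ≤ Gam m) :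
    ∃ a b R : ℝ → ℝ, a 0 = a0 ∧ b 0 = b0 ∧ R 0 = R0 ∧ ∀ t, 0 ≤ t →
      0 < a t ∧ 0 < b t ∧ HasDerivAt a (F1 (a t) (b t)) t ∧
      HasDerivAt b (F2 m (a t) (b t) (R t)) t ∧ HasDerivAt R (F3 m (a t) (b t) (R t)) t := by
  obtain ⟨K, L, hK, hL⟩ := field_bounds m hm
  obtain ⟨Y, hY0, hY⟩ := global_flow (fun Y => FF m (clamp m Y)) K L hK hL (a0, b0, R0)
  set a : ℝ → ℝ := fun t => (Y t).1 with hadef
  set b : ℝ → ℝ := fun t => (Y t).2.1 with hbdef
  set R : ℝ → ℝ := fun t => (Y t).2.2 with hRdef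
  have hΓ := Gam_pos hm
  have hda : ∀ t, HasDerivAt a (F1 (cl (9 / 2) (a t)) (cl (7 / 2) (b t))) t := fun t =>
    (hasFDerivAt_fst (𝕜 := ℝ) (E := ℝ) (F := ℝ × ℝ) (p := Y t)).comp_hasDerivAt t (hY t)
  have hdb : ∀ t, HasDerivAt b (F2 m (cl (9 / 2) (a t)) (cl (7 / 2) (b t)) (cl (Gam m) (R t))) t :=
    fun t => (((ContinuousLinearMap.fst ℝ ℝ ℝ).comp
      (ContinuousLinearMap.snd ℝ ℝ (ℝ × ℝ))).hasFDerivAt (x := Y t)).comp_hasDerivAt t (hY t)
  have hdR : ∀ t, HasDerivAt R (F3 m (cl (9 / 2) (a t)) (cl (7 / 2) (b t)) (cl (Gam m) (R t))) t :=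
    fun t => (((ContinuousLinearMap.snd ℝ ℝ ℝ).comp
      (ContinuousLinearMap.snd ℝ ℝ (ℝ × ℝ))).hasFDerivAt (x := Y t)).comp_hasDerivAt t (hY t)
  have ha0 : a 0 = a0 := by simp [hadef, hY0]
  have hb0 : b 0 = b0 := by simp [hbdef, hY0]
  have hR0 : R 0 = R0 := by simp [hRdef, hY0]
  have h92 : (0 : ℝ) ≤ 9 / 2 := by norm_num
  have h72 : (0 : ℝ) ≤ 7 / 2 := by norm_num
  -- clamped values
  have pa0 : ∀ t, 0 ≤ cl (9 / 2) (a t) := fun t => cl_nonneg _ _
  have pa1 : ∀ t, cl (9 / 2) (a t) ≤ 9 / 2 := fun t => cl_le h92 _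
  have pb0 : ∀ t, 0 ≤ cl (7 / 2) (b t) := fun t => cl_nonneg _ _
  have pb1 : ∀ t, cl (7 / 2) (b t) ≤ 7 / 2 := fun t => cl_le h72 _
  have pR0 : ∀ t, 0 ≤ cl (Gam m) (R t) := fun t => cl_nonneg _ _
  have pR1 : ∀ t, cl (Gam m) (R t) ≤ Gam m := fun t => cl_le hΓ.le _
  have hm2 : 0 < m + 2 := by linarith
  have hm3 : 0 < m + 3 := by linarith
  -- upper faces
  have ua : ∀ t, 0 ≤ t → a t ≤ 9 / 2 := by
    refine barrier_le hda (fun t ht => ?_) (by rw [ha0]; exact ha')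
    rw [cl_of_lt h92 ht]
    unfold F1
    have := pb1 t
    linarith
  have la : ∀ t, 0 ≤ t → 0 ≤ a t := by
    refine barrier_ge hda (fun t ht => ?_) (by rw [ha0]; exact ha.le)
    rw [cl_of_neg h92 ht]
    unfold F1
    simp
  have hκ : (m + 3) / (m + 2) * Gam m = (5 * m - 9) / 7 := by
    unfold Gam; field_simp
  have hκ0 : 0 < (m + 3) / (m + 2) := by positivity
  have ub : ∀ t, 0 ≤ t → b t ≤ 7 / 2 := by
    refine barrier_le hdb (fun t ht => ?_) (by rw [hb0]; exact hb')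
    rw [cl_of_lt h72 ht]
    unfold F2
    have h1 := pa1 t
    have h2 : (m + 3) / (m + 2) * cl (Gam m) (R t) ≤ (5 * m - 9) / 7 := by
      rw [← hκ]; exact mul_le_mul_of_nonneg_left (pR1 t) hκ0.le
    have h3 : (m + 3) / (m + 2) * (cl (Gam m) (R t) * (7 / 2))
      = ((m + 3) / (m + 2) * cl (Gam m) (R t)) * (7 / 2) := by ring
    rw [h3]
    nlinarith
  have lb : ∀ t, 0 ≤ t → 0 ≤ b t := by
    refine barrier_ge hdb (fun t ht => ?_) (by rw [hb0]; exact hb.le)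
    rw [cl_of_neg h72 ht]
    unfold F2
    simp
  have uR : ∀ t, 0 ≤ t → R t ≤ Gam m := by
    refine barrier_le hdR (fun t ht => ?_) (by rw [hR0]; exact hR')
    rw [cl_of_lt hΓ.le ht]
    unfold F3
    set x := cl (9 / 2) (a t)
    set y := cl (7 / 2) (b t)
    have hx0 : 0 ≤ x := pa0 t
    have hx1 : x ≤ 9 / 2 := pa1 t
    have hy0 : 0 ≤ y := pb0 t
    have hy1 : y ≤ 7 / 2 := pb1 t
    have e1 : m + 2 - Gam m = (m + 2) * (2 * m + 30) / (7 * (m + 3)) := by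
      unfold Gam; field_simp; ring
    have e2 : 1 - Gam m / (m + 2) = (2 * m + 30) / (7 * (m + 3)) := by
      unfold Gam; field_simp; ring
    have p1 : 0 ≤ m + 2 - Gam m := by rw [e1]; positivity
    have p2 : 0 ≤ Gam m * (1 - Gam m / (m + 2)) := by
      rw [e2]
      have : 0 < 2 * m + 30 := by linarith
      positivity
    have main : (m + 2 - Gam m) * (9 / 2) + Gam m * (1 - Gam m / (m + 2)) * (7 / 2)
        - Gam m * (m - 1) ≤ 0 := by
      have e3 : (m + 2 - Gam m) * (9 / 2) + Gam m * (1 - Gam m / (m + 2)) * (7 / 2)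
        - Gam m * (m - 1) = - ((m + 2) * ((m - 9) * (5 * m + 27) * (m + 1))
          / (7 * (m + 3) ^ 2)) := by
        rw [e1, e2]; unfold Gam; field_simp; ring
      rw [e3]
      have : 0 ≤ (m + 2) * ((m - 9) * (5 * m + 27) * (m + 1)) / (7 * (m + 3) ^ 2) := by
        apply div_nonneg _ (by positivity)
        apply mul_nonneg hm2.le
        apply mul_nonneg _ (by linarith)
        apply mul_nonneg (by linarith) (by linarith)
      linarith
    have e4 : (m + 2) * x - Gam m * ((m - 1) + x - y + Gam m * y / (m + 2))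
        = (m + 2 - Gam m) * x + Gam m * (1 - Gam m / (m + 2)) * y - Gam m * (m - 1) := by
      ring
    rw [e4]
    have q1 := mul_le_mul_of_nonneg_left hx1 p1
    have q2 := mul_le_mul_of_nonneg_left hy1 p2
    linarith
  have lR : ∀ t, 0 ≤ t → 0 ≤ R t := by
    refine barrier_ge hdR (fun t ht => ?_) (by rw [hR0]; exact hR)
    rw [cl_of_neg hΓ.le ht]
    unfold F3
    have := pa0 t
    simp only [zero_mul, sub_zero]
    positivity
  have ca : ∀ t, 0 ≤ t → cl (9 / 2) (a t) = a t := fun t ht => cl_of_mem (la t ht) (ua t ht)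
  have cb : ∀ t, 0 ≤ t → cl (7 / 2) (b t) = b t := fun t ht => cl_of_mem (lb t ht) (ub t ht)
  have cR : ∀ t, 0 ≤ t → cl (Gam m) (R t) = R t := fun t ht => cl_of_mem (lR t ht) (uR t ht)
  have da : ∀ t, 0 ≤ t → HasDerivAt a (F1 (a t) (b t)) t := fun t ht => by
    have := hda t; rwa [ca t ht, cb t ht] at this
  have db : ∀ t, 0 ≤ t → HasDerivAt b (F2 m (a t) (b t) (R t)) t := fun t ht => by
    have := hdb t; rwa [ca t ht, cb t ht, cR t ht] at this
  have dR : ∀ t, 0 ≤ t → HasDerivAt R (F3 m (a t) (b t) (R t)) t := fun t ht => by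
    have := hdR t; rwa [ca t ht, cb t ht, cR t ht] at this
  have posa : ∀ t, 0 ≤ t → 0 < a t := by
    refine pos_of_deriv (K := 2) da (fun t ht => ?_) (by rw [ha0]; exact ha)
    unfold F1
    nlinarith [la t ht, ua t ht, lb t ht, mul_nonneg (la t ht) (lb t ht),
      mul_nonneg (la t ht) (sub_nonneg.2 (ua t ht))]
  have posb : ∀ t, 0 ≤ t → 0 < b t := by
    refine pos_of_deriv (K := 2 * m) db (fun t ht => ?_) (by rw [hb0]; exact hb)
    unfold F2
    have h1 := lb t ht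
    have h2 := ub t ht
    have h3 := la t ht
    have h4 : 0 ≤ (m + 3) / (m + 2) * (R t * b t) :=
      mul_nonneg hκ0.le (mul_nonneg (lR t ht) h1)
    have h5 : -(4 * m) ≤ a t + m * (1 - b t) + (m + 3) / (m + 2) * (R t * b t) := by
      nlinarith
    nlinarith [mul_le_mul_of_nonneg_left h5 h1]
  exact ⟨a, b, R, ha0, hb0, hR0, fun t ht => ⟨posa t ht, posb t ht, da t ht, db t ht, dR t ht⟩⟩

end P252
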