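import Mathlib

/-!
Power series for the singular initial value problem at `q = 0`.
-/

namespace P252

open Finset

/-- sum of a power series -/
noncomputable def ev (c : ℕ → ℝ) (q : ℝ) : ℝ := ∑' j, c j * q ^ j

/-- derived coefficients -/
def dc (c : ℕ → ℝ) : ℕ → ℝ := fun j => ((j : ℝ) + 1) * c (j + 1)

/-- exponential bound of the coefficients -/
def Bd (K ρ : ℝ) (c : ℕ → ℝ) : Prop := ∀ j, |c j| ≤ K * ρ ^ j

lemma Bd.summable {K ρ : ℝ} {c : ℕ → ℝ} (h : Bd K ρ c) (hρ : 0 < ρ) {q : ℝ}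
    (hq : |q| < 1 / ρ) : Summable (fun j => |c j * q ^ j|) := by
  have h1 : ρ * |q| < 1 := by
    rw [lt_div_iff₀ hρ] at hq; linarith
  have h0 : 0 ≤ ρ * |q| := by positivity
  have hs : Summable (fun j : ℕ => K * (ρ * |q|) ^ j) :=
    (summable_geometric_of_lt_one h0 h1).mul_left K
  refine Summable.of_nonneg_of_le (fun j => abs_nonneg _) (fun j => ?_) hs
  rw [abs_mul, abs_pow, mul_pow]
  calc |c j| * |q| ^ j ≤ (K * ρ ^ j) * |q| ^ j :=
        mul_le_mul_of_nonneg_right (h j) (by positivity)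
    _ = K * (ρ ^ j * |q| ^ j) := by ring

lemma Bd.hasSum {K ρ : ℝ} {c : ℕ → ℝ} (h : Bd K ρ c) (hρ : 0 < ρ) {q : ℝ}
    (hq : |q| < 1 / ρ) : HasSum (fun j => c j * q ^ j) (ev c q) :=
  (h.summable hρ hq).of_abs.hasSum

lemma Bd.hasSum_shift {K ρ : ℝ} {c : ℕ → ℝ} (h : Bd K ρ c) (hρ : 0 < ρ) {q : ℝ}
    (hq : |q| < 1 / ρ) :
    ∃ s, HasSum (fun j => c (j + 1) * q ^ j) s ∧ ev c q = c 0 + q * s := by
  have hb : Bd (K * ρ) ρ (fun j => c (j + 1)) := by
    intro j
    have := h (j + 1)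
    rw [pow_succ] at this
    calc |c (j + 1)| ≤ K * (ρ ^ j * ρ) := this
      _ = K * ρ * ρ ^ j := by ring
  refine ⟨ev (fun j => c (j + 1)) q, hb.hasSum hρ hq, ?_⟩
  have h1 := (h.summable hρ hq).of_abs
  have h2 := h1.tsum_eq_zero_add
  unfold ev
  rw [h2, ← tsum_mul_left]
  simp only [pow_zero, mul_one]
  congr 1
  refine tsum_congr (fun j => ?_)
  rw [pow_succ]; ring

lemma summable_dbound {K r ρ : ℝ} (hρ : 0 < ρ) (hr0 : 0 ≤ r) (hr : r < 1 / ρ) :
    Summable (fun n : ℕ => K * ρ * (((n : ℝ) + 1) * (ρ * r) ^ n)) := by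
  have h1 : ρ * r < 1 := by
    rw [lt_div_iff₀ hρ] at hr; linarith
  have h0 : 0 ≤ ρ * r := by positivity
  have h2 : ‖ρ * r‖ < 1 := by rwa [Real.norm_of_nonneg h0]
  have h3 := (summable_pow_mul_geometric_of_norm_lt_one 1 h2).add
    (summable_geometric_of_lt_one h0 h1)
  refine (h3.mul_left (K * ρ)).congr (fun n => ?_)
  simp only [pow_one]
  ring

lemma Bd.hasSum_dc {K ρ : ℝ} {c : ℕ → ℝ} (h : Bd K ρ c) (hρ : 0 < ρ) {q : ℝ}
    (hq : |q| < 1 / ρ) : HasSum (fun j => dc c j * q ^ j) (ev (dc c) q) := by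
  have hs := summable_dbound (K := K) hρ (abs_nonneg q) hq
  have : Summable (fun j => |dc c j * q ^ j|) := by
    refine Summable.of_nonneg_of_le (fun j => abs_nonneg _) (fun j => ?_) hs
    unfold dc
    rw [abs_mul, abs_mul, abs_pow, abs_of_nonneg (by positivity : (0 : ℝ) ≤ (j : ℝ) + 1)]
    have hj := h (j + 1)
    calc ((j : ℝ) + 1) * |c (j + 1)| * |q| ^ j
        ≤ ((j : ℝ) + 1) * (K * ρ ^ (j + 1)) * |q| ^ j := by gcongr
      _ = K * ρ * (((j : ℝ) + 1) * (ρ * |q|) ^ j) := by rw [mul_pow]; ring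
  exact this.of_abs.hasSum

lemma Bd.hasDerivAt {K ρ : ℝ} {c : ℕ → ℝ} (h : Bd K ρ c) (hρ : 0 < ρ) {q : ℝ}
    (hq : |q| < 1 / ρ) : HasDerivAt (ev c) (ev (dc c) q) q := by
  obtain ⟨r, hr1, hr2⟩ := exists_between hq
  have hr0 : 0 ≤ r := (abs_nonneg q).trans hr1.le
  -- bound of derivative terms: `|c n * (n * y^(n-1))|`
  set u : ℕ → ℝ := fun n => |c n| * ((n : ℝ) * r ^ (n - 1)) with hu
  have hus : Summable u := by
    have hs := summable_dbound (K := K) hρ hr0 hr2
    rw [← summable_nat_add_iff 1]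
    refine Summable.of_nonneg_of_le (fun j => by positivity) (fun j => ?_) hs
    simp only [hu, Nat.add_sub_cancel]
    have hj := h (j + 1)
    push_cast
    calc |c (j + 1)| * (((j : ℝ) + 1) * r ^ j)
        ≤ (K * ρ ^ (j + 1)) * (((j : ℝ) + 1) * r ^ j) := by gcongr
      _ = K * ρ * (((j : ℝ) + 1) * (ρ * r) ^ j) := by rw [mul_pow]; ring
  have key := hasDerivAt_tsum_of_isPreconnected (g := fun n y => c n * y ^ n)
    (g' := fun n y => c n * ((n : ℝ) * y ^ (n - 1))) (t := Metric.ball (0 : ℝ) r) (y₀ := 0)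
    (y := q) hus Metric.isOpen_ball (convex_ball (0 : ℝ) r).isPreconnected
    (fun n y _ => (hasDerivAt_pow n y).const_mul (c n))
    (fun n y hy => by
      rw [mem_ball_zero_iff, Real.norm_eq_abs] at hy
      rw [Real.norm_eq_abs, abs_mul, abs_mul, abs_pow, Nat.abs_cast]
      simp only [hu]
      gcongr)
    (by
      rw [mem_ball_zero_iff, norm_zero]
      exact lt_of_le_of_lt (abs_nonneg q) hr1)
    (by
      refine (h.summable hρ (q := 0) ?_).of_abs
      rw [abs_zero]; positivity)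
    (by rw [mem_ball_zero_iff, Real.norm_eq_abs]; exact hr1)
  have hval : (∑' n, c n * ((n : ℝ) * q ^ (n - 1))) = ev (dc c) q := by
    have hsum : Summable (fun n => c n * ((n : ℝ) * q ^ (n - 1))) := by
      refine Summable.of_norm_bounded hus (fun n => ?_)
      rw [Real.norm_eq_abs, abs_mul, abs_mul, abs_pow, Nat.abs_cast]
      simp only [hu]
      gcongr
    rw [hsum.tsum_eq_zero_add]
    unfold ev dc
    simp only [Nat.cast_zero, zero_mul, mul_zero, zero_add, Nat.add_sub_cancel]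
    refine tsum_congr (fun j => ?_)
    push_cast; ring
  rw [hval] at key
  exact key

lemma Bd.contDiffAt {K ρ : ℝ} {c : ℕ → ℝ} (h : Bd K ρ c) (hρ : 0 < ρ) {q : ℝ}
    (hq : |q| < 1 / ρ) {n : WithTop ℕ∞} : ContDiffAt ℝ n (ev c) q := by
  set p : FormalMultilinearSeries ℝ ℝ ℝ := FormalMultilinearSeries.ofScalars ℝ c with hp
  have hsum : p.sum = ev c := by
    funext x
    have := FormalMultilinearSeries.ofScalars_sum_eq (𝕜 := ℝ) (E := ℝ) c x
    rw [FormalMultilinearSeries.ofScalarsSum] at this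
    rw [hp, this]
    unfold ev
    simp [smul_eq_mul]
  have hrad : ENNReal.ofReal (1 / ρ) ≤ p.radius := by
    have h1 : ENNReal.ofReal (1 / ρ) = ((Real.toNNReal (1 / ρ) : NNReal) : ENNReal) := rfl
    rw [h1]
    refine FormalMultilinearSeries.le_radius_of_bound p K (fun j => ?_)
    rw [hp, FormalMultilinearSeries.ofScalars_norm, Real.norm_eq_abs,
      Real.coe_toNNReal _ (by positivity)]
    calc |c j| * (1 / ρ) ^ j ≤ (K * ρ ^ j) * (1 / ρ) ^ j :=
          mul_le_mul_of_nonneg_right (h j) (by positivity)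
      _ = K := by rw [mul_assoc, ← mul_pow, mul_one_div_cancel hρ.ne', one_pow, mul_one]
  have hpos : 0 < p.radius := lt_of_lt_of_le (by
    rw [ENNReal.ofReal_pos]; positivity) hrad
  have hfp := p.hasFPowerSeriesOnBall hpos
  rw [hsum] at hfp
  have : AnalyticAt ℝ (ev c) q := by
    apply hfp.analyticAt_of_mem
    rw [Metric.mem_eball, edist_dist, Real.dist_eq, sub_zero]
    exact lt_of_lt_of_le ((ENNReal.ofReal_lt_ofReal_iff (by positivity)).2 hq) hrad
  exact this.contDiffAt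

/-- Cauchy product -/
lemma hasSum_conv {c d : ℕ → ℝ} {q : ℝ} (hc : Summable (fun j => |c j * q ^ j|))
    (hd : Summable (fun j => |d j * q ^ j|)) :
    HasSum (fun n => (∑ kl ∈ Finset.HasAntidiagonal.antidiagonal n, c kl.1 * d kl.2) * q ^ n)
      (ev c q * ev d q) := by
  have h1 := tsum_mul_tsum_eq_tsum_sum_antidiagonal_of_summable_norm
    (f := fun j => c j * q ^ j) (g := fun j => d j * q ^ j)
    (by simpa [Real.norm_eq_abs] using hc) (by simpa [Real.norm_eq_abs] using hd)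
  have h2 := (summable_norm_sum_mul_antidiagonal_of_summable_norm
    (f := fun j => c j * q ^ j) (g := fun j => d j * q ^ j)
    (by simpa [Real.norm_eq_abs] using hc) (by simpa [Real.norm_eq_abs] using hd)).of_norm
  have h3 := h2.hasSum
  rw [← h1] at h3
  have h4 : (fun n => (∑ kl ∈ Finset.HasAntidiagonal.antidiagonal n, c kl.1 * d kl.2) * q ^ n)
      = fun n => ∑ kl ∈ Finset.HasAntidiagonal.antidiagonal n,
        c kl.1 * q ^ kl.1 * (d kl.2 * q ^ kl.2) := by
    funext n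
    rw [Finset.sum_mul]
    refine Finset.sum_congr rfl (fun kl hkl => ?_)
    rw [Finset.HasAntidiagonal.mem_antidiagonal] at hkl
    rw [← hkl, pow_add]; ring
  rw [h4]
  exact h3

/-! ### The recursion -/

/-- the three coefficient sequences, packed -/
noncomputable def S (m : ℝ) : ℕ → ℝ × ℝ × ℝ
  | 0 => (1, (1 + (m + 3) / (m + 2) * ((m + 2) / m)) / (m + 2), (m + 2) / m)
  | (j + 1) =>
    let A : Fin (j + 1) → ℝ := fun i => (S m i.1).1
    let B : Fin (j + 1) → ℝ := fun i => (S m i.1).2.1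
    let C : Fin (j + 1) → ℝ := fun i => (S m i.1).2.2
    let a : ℝ := (∑ i : Fin (j + 1), A i * (B i.rev - A i.rev)) / (2 * ((j : ℝ) + 1))
    let c : ℝ := ((m + 2) * a + ∑ i : Fin (j + 1), (C i * C i.rev - (m - 1) * (B i * C i.rev)
      + (m + 2) * (A i * B i.rev))) / (2 * ((j : ℝ) + 1) + m)
    let b : ℝ := (a + (m + 3) / (m + 2) * c + ∑ i : Fin (j + 1),
      B i * (A i.rev - m * B i.rev + (m + 3) / (m + 2) * C i.rev)) / (2 * ((j : ℝ) + 1) + m + 2)
    (a, b, c)

noncomputable def sA (m : ℝ) (j : ℕ) : ℝ := (S m j).1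
noncomputable def sB (m : ℝ) (j : ℕ) : ℝ := (S m j).2.1
noncomputable def sC (m : ℝ) (j : ℕ) : ℝ := (S m j).2.2

lemma sum_rev (j : ℕ) (f g : ℕ → ℝ) :
    ∑ i : Fin (j + 1), f i.1 * g i.rev.1
      = ∑ kl ∈ Finset.HasAntidiagonal.antidiagonal j, f kl.1 * g kl.2 := by
  rw [Finset.Nat.sum_antidiagonal_eq_sum_range_succ (fun a b => f a * g b), Finset.sum_range]
  refine Finset.sum_congr rfl (fun i _ => ?_)
  rw [Fin.val_rev]
  congr 2
  omega

/-- antidiagonal product -/
noncomputable def cv (c d : ℕ → ℝ) (j : ℕ) : ℝ :=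
  ∑ kl ∈ Finset.HasAntidiagonal.antidiagonal j, c kl.1 * d kl.2

lemma sA_zero (m : ℝ) : sA m 0 = 1 := by simp [sA, S]
lemma sC_zero (m : ℝ) : sC m 0 = (m + 2) / m := by simp [sC, S]
lemma sB_zero (m : ℝ) : sB m 0 = (1 + (m + 3) / (m + 2) * ((m + 2) / m)) / (m + 2) := by
  simp [sB, S]

lemma sA_succ (m : ℝ) (j : ℕ) :
    2 * ((j : ℝ) + 1) * sA m (j + 1)
      = cv (sA m) (fun i => sB m i - sA m i) j := by
  have h : sA m (j + 1) = (∑ i : Fin (j + 1), sA m i.1 * (sB m i.rev.1 - sA m i.rev.1))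
      / (2 * ((j : ℝ) + 1)) := by
    conv_lhs => rw [sA, S]
    rfl
  have hj : (2 * ((j : ℝ) + 1)) ≠ 0 := by positivity
  rw [h, mul_div_cancel₀ _ hj, cv, sum_rev j (sA m) (fun i => sB m i - sA m i)]

lemma sC_succ (m : ℝ) (hm : 0 < m) (j : ℕ) :
    (2 * ((j : ℝ) + 1) + m) * sC m (j + 1)
      = (m + 2) * sA m (j + 1) + (cv (sC m) (sC m) j - (m - 1) * cv (sB m) (sC m) j
        + (m + 2) * cv (sA m) (sB m) j) := by
  have h : sC m (j + 1) = ((m + 2) * sA m (j + 1) + ∑ i : Fin (j + 1),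
      (sC m i.1 * sC m i.rev.1 - (m - 1) * (sB m i.1 * sC m i.rev.1)
      + (m + 2) * (sA m i.1 * sB m i.rev.1))) / (2 * ((j : ℝ) + 1) + m) := by
    conv_lhs => rw [sC, S]
    conv_rhs => rw [sA, S]
    rfl
  have hj : (2 * ((j : ℝ) + 1) + m) ≠ 0 := by positivity
  rw [h, mul_div_cancel₀ _ hj, Finset.sum_add_distrib, Finset.sum_sub_distrib, ← Finset.mul_sum,
    ← Finset.mul_sum]
  simp only [cv, sum_rev]

lemma sB_succ (m : ℝ) (hm : 0 < m) (j : ℕ) :
    (2 * ((j : ℝ) + 1) + m + 2) * sB m (j + 1)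
      = sA m (j + 1) + (m + 3) / (m + 2) * sC m (j + 1)
        + cv (sB m) (fun i => sA m i - m * sB m i + (m + 3) / (m + 2) * sC m i) j := by
  have h : sB m (j + 1) = (sA m (j + 1) + (m + 3) / (m + 2) * sC m (j + 1)
      + ∑ i : Fin (j + 1), sB m i.1 * (sA m i.rev.1 - m * sB m i.rev.1
        + (m + 3) / (m + 2) * sC m i.rev.1)) / (2 * ((j : ℝ) + 1) + m + 2) := by
    conv_lhs => rw [sB, S]
    conv_rhs => rw [sA, sC, S]
    rfl
  have hj : (2 * ((j : ℝ) + 1) + m + 2) ≠ 0 := by positivity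
  rw [h, mul_div_cancel₀ _ hj, cv,
    sum_rev j (sB m) (fun i => sA m i - m * sB m i + (m + 3) / (m + 2) * sC m i)]

lemma abs_cv_le {c d : ℕ → ℝ} {K L ρ : ℝ} (hK : 0 ≤ K) (hρ : 0 ≤ ρ) {j : ℕ}
    (hc : ∀ i ≤ j, |c i| ≤ K * ρ ^ i) (hd : ∀ i ≤ j, |d i| ≤ L * ρ ^ i) :
    |cv c d j| ≤ ((j : ℝ) + 1) * (K * L * ρ ^ j) := by
  unfold cv
  refine (Finset.abs_sum_le_sum_abs _ _).trans ?_
  have hcard : (Finset.HasAntidiagonal.antidiagonal j).card = j + 1 :=
    Finset.Nat.card_antidiagonal j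
  calc ∑ kl ∈ Finset.HasAntidiagonal.antidiagonal j, |c kl.1 * d kl.2|
      ≤ ∑ kl ∈ Finset.HasAntidiagonal.antidiagonal j, K * L * ρ ^ j := by
        refine Finset.sum_le_sum (fun kl hkl => ?_)
        rw [Finset.HasAntidiagonal.mem_antidiagonal] at hkl
        rw [abs_mul]
        calc |c kl.1| * |d kl.2| ≤ (K * ρ ^ kl.1) * (L * ρ ^ kl.2) := by
              apply mul_le_mul (hc _ (by omega)) (hd _ (by omega)) (abs_nonneg _)
              positivity
          _ = K * L * ρ ^ j := by rw [← hkl, pow_add]; ring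
    _ = ((j : ℝ) + 1) * (K * L * ρ ^ j) := by
        rw [Finset.sum_const, hcard, nsmul_eq_mul]; push_cast; ring

/-- the basic size constant -/
noncomputable def K0 (m : ℝ) : ℝ := 1 + |sB m 0| + |sC m 0|
noncomputable def rho (m : ℝ) : ℝ := (7 * m + 12) * K0 m

lemma K0_ge (m : ℝ) : 1 ≤ K0 m := by
  unfold K0; linarith [abs_nonneg (sB m 0), abs_nonneg (sC m 0)]

lemma rho_pos (m : ℝ) (hm : 0 < m) : 0 < rho m := by
  have := K0_ge m
  unfold rho; positivity

lemma bounds (m : ℝ) (hm : 1 ≤ m) (j : ℕ) :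
    ∀ i ≤ j, |sA m i| ≤ K0 m * rho m ^ i ∧ |sB m i| ≤ K0 m * rho m ^ i
      ∧ |sC m i| ≤ K0 m * rho m ^ i := by
  have hK := K0_ge m
  have hm0 : 0 < m := by linarith
  have hρ := rho_pos m hm0
  induction j with
  | zero =>
    intro i hi
    obtain rfl : i = 0 := by omega
    simp only [pow_zero, mul_one]
    refine ⟨?_, ?_, ?_⟩
    · rw [sA_zero, abs_one]; exact hK
    · unfold K0; linarith [abs_nonneg (sC m 0)]
    · unfold K0; linarith [abs_nonneg (sB m 0)]
  | succ j ih =>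
    intro i hi
    rcases Nat.lt_or_ge i (j + 1) with h | h
    · exact ih i (by omega)
    obtain rfl : i = j + 1 := by omega
    set K := K0 m with hKdef
    set ρ := rho m with hρdef
    have hρK : ρ = (7 * m + 12) * K := rfl
    have hjp : (0 : ℝ) < (j : ℝ) + 1 := by positivity
    have hj1 : (1 : ℝ) ≤ (j : ℝ) + 1 := by
      have : (0 : ℝ) ≤ (j : ℝ) := Nat.cast_nonneg j
      linarith
    have hK0 : 0 < K := by linarith
    have hE : 0 < K * K * ρ ^ j := by positivity
    set E := K * K * ρ ^ j with hEdef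
    have hA : ∀ i ≤ j, |sA m i| ≤ K * ρ ^ i := fun i hi => (ih i hi).1
    have hB : ∀ i ≤ j, |sB m i| ≤ K * ρ ^ i := fun i hi => (ih i hi).2.1
    have hC : ∀ i ≤ j, |sC m i| ≤ K * ρ ^ i := fun i hi => (ih i hi).2.2
    have hκ : (m + 3) / (m + 2) ≤ 2 := by
      rw [div_le_iff₀ (by linarith)]; linarith
    have hκ0 : 0 < (m + 3) / (m + 2) := by positivity
    -- A
    have hBA : ∀ i ≤ j, |sB m i - sA m i| ≤ (2 * K) * ρ ^ i := fun i hi => by
      have := abs_sub (sB m i) (sA m i)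
      linarith [hA i hi, hB i hi]
    have a1 := abs_cv_le hK0.le hρ.le hA hBA
    have a2 : |sA m (j + 1)| ≤ E := by
      have h := congrArg abs (sA_succ m j)
      rw [abs_mul, abs_of_pos (by positivity : (0 : ℝ) < 2 * ((j : ℝ) + 1))] at h
      have h3 : 2 * ((j : ℝ) + 1) * |sA m (j + 1)| ≤ 2 * ((j : ℝ) + 1) * E := by
        rw [h]; refine a1.trans (le_of_eq ?_); rw [hEdef]; ring
      exact le_of_mul_le_mul_left h3 (by positivity)
    -- C
    have c1 := abs_cv_le hK0.le hρ.le hC hC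
    have c2 := abs_cv_le hK0.le hρ.le hB hC
    have c3 := abs_cv_le hK0.le hρ.le hA hB
    have c4 : |sC m (j + 1)| ≤ (3 * m + 4) * E := by
      have h := congrArg abs (sC_succ m hm0 j)
      rw [abs_mul, abs_of_pos (by positivity : (0 : ℝ) < 2 * ((j : ℝ) + 1) + m)] at h
      have t1 : |(m + 2) * sA m (j + 1)| ≤ (m + 2) * E := by
        rw [abs_mul, abs_of_pos (by linarith : 0 < m + 2)]
        exact mul_le_mul_of_nonneg_left a2 (by linarith)
      have t2 : |(m - 1) * cv (sB m) (sC m) j| ≤ (m - 1) * (((j : ℝ) + 1) * E) := by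
        rw [abs_mul, abs_of_nonneg (by linarith : 0 ≤ m - 1)]
        exact mul_le_mul_of_nonneg_left c2 (by linarith)
      have t3 : |(m + 2) * cv (sA m) (sB m) j| ≤ (m + 2) * (((j : ℝ) + 1) * E) := by
        rw [abs_mul, abs_of_pos (by linarith : 0 < m + 2)]
        exact mul_le_mul_of_nonneg_left c3 (by linarith)
      have t4 : |(m + 2) * sA m (j + 1) + (cv (sC m) (sC m) j - (m - 1) * cv (sB m) (sC m) j
        + (m + 2) * cv (sA m) (sB m) j)| ≤ (m + 2) * E + (((j : ℝ) + 1) * E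
          + (m - 1) * (((j : ℝ) + 1) * E) + (m + 2) * (((j : ℝ) + 1) * E)) := by
        refine (abs_add_le _ _).trans ?_
        refine add_le_add t1 ?_
        refine (abs_add_le _ _).trans ?_
        refine add_le_add ?_ t3
        refine (abs_sub _ _).trans ?_
        exact add_le_add c1 t2
      have t5 : (2 * ((j : ℝ) + 1) + m) * |sC m (j + 1)|
          ≤ (2 * ((j : ℝ) + 1) + m) * ((3 * m + 4) * E) := by
        rw [h]
        refine t4.trans ?_
        nlinarith [mul_pos hE hm0, mul_nonneg hE.le (sub_nonneg.2 hj1),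
          mul_nonneg (mul_pos hE hm0).le (sub_nonneg.2 hj1), mul_pos (mul_pos hE hm0) hm0]
      exact le_of_mul_le_mul_left t5 (by positivity)
    -- B
    have hBc : ∀ i ≤ j, |sA m i - m * sB m i + (m + 3) / (m + 2) * sC m i|
        ≤ ((m + 3) * K) * ρ ^ i := fun i hi => by
      have h1 : |m * sB m i| ≤ m * (K * ρ ^ i) := by
        rw [abs_mul, abs_of_pos hm0]; exact mul_le_mul_of_nonneg_left (hB i hi) hm0.le
      have h2 : |(m + 3) / (m + 2) * sC m i| ≤ 2 * (K * ρ ^ i) := by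
        rw [abs_mul, abs_of_pos hκ0]
        exact mul_le_mul hκ (hC i hi) (abs_nonneg _) (by norm_num)
      refine (abs_add_le _ _).trans ?_
      have h3 := abs_sub (sA m i) (m * sB m i)
      linarith [hA i hi]
    have b1 := abs_cv_le hK0.le hρ.le hB hBc
    have b2 : |sB m (j + 1)| ≤ (7 * m + 12) * E := by
      have h := congrArg abs (sB_succ m hm0 j)
      rw [abs_mul, abs_of_pos (by positivity : (0 : ℝ) < 2 * ((j : ℝ) + 1) + m + 2)] at h
      have t1 : |(m + 3) / (m + 2) * sC m (j + 1)| ≤ 2 * ((3 * m + 4) * E) := by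
        rw [abs_mul, abs_of_pos hκ0]
        exact mul_le_mul hκ c4 (abs_nonneg _) (by norm_num)
      have t2 : |sA m (j + 1) + (m + 3) / (m + 2) * sC m (j + 1)
        + cv (sB m) (fun i => sA m i - m * sB m i + (m + 3) / (m + 2) * sC m i) j|
          ≤ E + 2 * ((3 * m + 4) * E) + ((j : ℝ) + 1) * (K * ((m + 3) * K) * ρ ^ j) := by
        refine (abs_add_le _ _).trans ?_
        refine add_le_add ?_ b1
        exact (abs_add_le _ _).trans (add_le_add a2 t1)
      have t3 : (2 * ((j : ℝ) + 1) + m + 2) * |sB m (j + 1)|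
          ≤ (2 * ((j : ℝ) + 1) + m + 2) * ((7 * m + 12) * E) := by
        rw [h]
        refine t2.trans ?_
        have e1 : K * ((m + 3) * K) * ρ ^ j = (m + 3) * E := by rw [hEdef]; ring
        rw [e1]
        nlinarith [mul_pos hE hm0, mul_nonneg hE.le (sub_nonneg.2 hj1),
          mul_nonneg (mul_pos hE hm0).le (sub_nonneg.2 hj1), mul_pos (mul_pos hE hm0) hm0]
      exact le_of_mul_le_mul_left t3 (by positivity)
    have hfin : (7 * m + 12) * E = K * ρ ^ (j + 1) := by
      rw [hEdef, pow_succ, hρK]; ring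
    refine ⟨?_, ?_, ?_⟩
    · rw [← hfin]; refine a2.trans ?_; nlinarith
    · rw [← hfin]; exact b2
    · rw [← hfin]; refine c4.trans ?_; nlinarith

lemma bdA (m : ℝ) (hm : 1 ≤ m) : Bd (K0 m) (rho m) (sA m) := fun j => (bounds m hm j j le_rfl).1
lemma bdB (m : ℝ) (hm : 1 ≤ m) : Bd (K0 m) (rho m) (sB m) := fun j => (bounds m hm j j le_rfl).2.1
lemma bdC (m : ℝ) (hm : 1 ≤ m) : Bd (K0 m) (rho m) (sC m) := fun j => (bounds m hm j j le_rfl).2.2

lemma Bd.sub {K L ρ : ℝ} {c d : ℕ → ℝ} (hc : Bd K ρ c) (hd : Bd L ρ d) :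
    Bd (K + L) ρ (fun i => c i - d i) := fun j => by
  have := abs_sub (c j) (d j)
  have h1 := hc j
  have h2 := hd j
  rw [add_mul]; linarith

lemma Bd.add {K L ρ : ℝ} {c d : ℕ → ℝ} (hc : Bd K ρ c) (hd : Bd L ρ d) :
    Bd (K + L) ρ (fun i => c i + d i) := fun j => by
  have := abs_add_le (c j) (d j)
  have h1 := hc j
  have h2 := hd j
  rw [add_mul]; linarith

lemma Bd.smul {K ρ : ℝ} {c : ℕ → ℝ} (hc : Bd K ρ c) (x : ℝ) :
    Bd (|x| * K) ρ (fun i => x * c i) := fun j => by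
  rw [abs_mul, mul_assoc]
  exact mul_le_mul_of_nonneg_left (hc j) (abs_nonneg x)

/-- The local analytic solution of the singular system. -/
theorem local_ode (m : ℝ) (hm : 1 ≤ m) {q : ℝ} (hq : |q| < 1 / rho m) :
    HasDerivAt (ev (sA m)) (ev (sA m) q * (ev (sB m) q - ev (sA m) q) / 2) q ∧
    (∃ b' c', HasDerivAt (ev (sB m)) b' q ∧ HasDerivAt (ev (sC m)) c' q ∧
      2 * (ev (sB m) q + q * b') = (1 + q * ev (sB m) q) *
        (ev (sA m) q - m * ev (sB m) q + (m + 3) / (m + 2) * ev (sC m) q) ∧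
      2 * (ev (sC m) q + q * c') = q * ev (sC m) q ^ 2 + ev (sC m) q
        - (m - 1) * (1 + q * ev (sB m) q) * ev (sC m) q
        + (m + 2) * ev (sA m) q * (1 + q * ev (sB m) q)) := by
  have hm0 : 0 < m := by linarith
  have hρ := rho_pos m hm0
  have bA := bdA m hm
  have bB := bdB m hm
  have bC := bdC m hm
  have hA := bA.hasSum hρ hq
  have hB := bB.hasSum hρ hq
  have hC := bC.hasSum hρ hq
  have dA := bA.hasSum_dc hρ hq
  have dB := bB.hasSum_dc hρ hq
  have dC := bC.hasSum_dc hρ hq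
  obtain ⟨As, hAs, eA⟩ := bA.hasSum_shift hρ hq
  obtain ⟨Bs, hBs, eB⟩ := bB.hasSum_shift hρ hq
  obtain ⟨Cs, hCs, eC⟩ := bC.hasSum_shift hρ hq
  set a := ev (sA m) q with ha
  set b := ev (sB m) q with hb
  set c := ev (sC m) q with hc
  set a' := ev (dc (sA m)) q
  set b' := ev (dc (sB m)) q
  set c' := ev (dc (sC m)) q
  set κ := (m + 3) / (m + 2) with hκ
  -- products
  have pBA := hasSum_conv (bA.summable hρ hq) ((bB.sub bA).summable hρ hq)
  have pBl := hasSum_conv (bB.summable hρ hq)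
    (((bA.sub (bB.smul m)).add (bC.smul κ)).summable hρ hq)
  have pCC := hasSum_conv (bC.summable hρ hq) (bC.summable hρ hq)
  have pBC := hasSum_conv (bB.summable hρ hq) (bC.summable hρ hq)
  have pAB := hasSum_conv (bA.summable hρ hq) (bB.summable hρ hq)
  have vBA : ev (fun i => sB m i - sA m i) q = b - a := by
    have h1 := (bB.sub bA).hasSum hρ hq
    have h2 : HasSum (fun j => (sB m j - sA m j) * q ^ j) (b - a) := by
      have h3 := hB.sub hA
      have h4 : (fun j => (sB m j - sA m j) * q ^ j)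
        = fun j => sB m j * q ^ j - sA m j * q ^ j := by funext j; ring
      rw [h4]; exact h3
    exact h1.unique h2
  have vBl : ev (fun i => sA m i - m * sB m i + κ * sC m i) q = a - m * b + κ * c := by
    have h1 := ((bA.sub (bB.smul m)).add (bC.smul κ)).hasSum hρ hq
    have h2 : HasSum (fun j => (sA m j - m * sB m j + κ * sC m j) * q ^ j)
        (a - m * b + κ * c) := by
      have h3 := (hA.sub (hB.mul_left m)).add (hC.mul_left κ)
      have h4 : (fun j => (sA m j - m * sB m j + κ * sC m j) * q ^ j)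
        = fun j => sA m j * q ^ j - m * (sB m j * q ^ j) + κ * (sC m j * q ^ j) := by
        funext j; ring
      rw [h4]; exact h3
    exact h1.unique h2
  rw [vBA] at pBA
  rw [vBl] at pBl
  -- equation A
  have EA : 2 * a' = a * (b - a) := by
    refine HasSum.unique ?_ pBA
    have h3 := dA.mul_left 2
    have h4 : (fun n => (∑ kl ∈ Finset.HasAntidiagonal.antidiagonal n,
        sA m kl.1 * (sB m kl.2 - sA m kl.2)) * q ^ n)
        = fun j => 2 * (dc (sA m) j * q ^ j) := by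
      funext j
      have := sA_succ m j
      unfold cv at this
      rw [← this]; unfold dc; ring
    rw [h4]; exact h3
  have EC : 2 * c' + m * Cs = (m + 2) * As + (c * c - (m - 1) * (b * c) + (m + 2) * (a * b)) := by
    have h3 := ((dC.mul_left 2).add (hCs.mul_left m))
    have h5 := (hAs.mul_left (m + 2)).add ((pCC.sub (pBC.mul_left (m - 1))).add
      (pAB.mul_left (m + 2)))
    refine h3.unique ?_
    have h4 : (fun j => 2 * (dc (sC m) j * q ^ j) + m * (sC m (j + 1) * q ^ j))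
        = fun j => (m + 2) * (sA m (j + 1) * q ^ j) + (
          (∑ kl ∈ Finset.HasAntidiagonal.antidiagonal j, sC m kl.1 * sC m kl.2) * q ^ j
          - (m - 1) * ((∑ kl ∈ Finset.HasAntidiagonal.antidiagonal j, sB m kl.1 * sC m kl.2)
            * q ^ j)
          + (m + 2) * ((∑ kl ∈ Finset.HasAntidiagonal.antidiagonal j, sA m kl.1 * sB m kl.2)
            * q ^ j)) := by
      funext j
      have := sC_succ m hm0 j
      unfold cv at this
      unfold dc
      linear_combination (q ^ j) * this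
    rw [h4]; exact h5
  have EB : 2 * b' + (m + 2) * Bs = As + κ * Cs + b * (a - m * b + κ * c) := by
    have h3 := ((dB.mul_left 2).add (hBs.mul_left (m + 2)))
    have h5 := (hAs.add (hCs.mul_left κ)).add pBl
    refine h3.unique ?_
    have h4 : (fun j => 2 * (dc (sB m) j * q ^ j) + (m + 2) * (sB m (j + 1) * q ^ j))
        = fun j => sA m (j + 1) * q ^ j + κ * (sC m (j + 1) * q ^ j) +
          (∑ kl ∈ Finset.HasAntidiagonal.antidiagonal j, sB m kl.1 *
            (sA m kl.2 - m * sB m kl.2 + κ * sC m kl.2)) * q ^ j := by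
      funext j
      have := sB_succ m hm0 j
      unfold cv at this
      unfold dc
      linear_combination (q ^ j) * this
    rw [h4]; exact h5
  have hA0 : sA m 0 = 1 := sA_zero m
  have hC0 : m * sC m 0 = (m + 2) * sA m 0 := by
    rw [hA0, sC_zero]; field_simp
  have hB0 : (m + 2) * sB m 0 = sA m 0 + κ * sC m 0 := by
    rw [hA0, sC_zero, sB_zero, hκ]; field_simp
  refine ⟨?_, b', c', bB.hasDerivAt hρ hq, bC.hasDerivAt hρ hq, ?_, ?_⟩
  · have := bA.hasDerivAt hρ hq
    have e : a * (b - a) / 2 = a' := by linarith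
    rw [e]; exact this
  · linear_combination q * EB + hB0 + (m + 2) * eB - eA - κ * eC
  · linear_combination q * EC + hC0 + m * eC - (m + 2) * eA

end P252
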