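import Mathlib
import Vale.Agent.P252.Series
import Vale.Agent.P252.Flow

/-!
Gluing of the local analytic solution with the global flow.
-/

namespace P252

open Set
open scoped ContDiff Topology

lemma glue {f g f' g' : ℝ → ℝ} {t0 : ℝ} (hf : ∀ t, t ≤ t0 → HasDerivAt f (f' t) t)
    (hg : ∀ t, t0 ≤ t → HasDerivAt g (g' t) t) (h : f t0 = g t0) (h' : f' t0 = g' t0) (t : ℝ) :
    HasDerivAt (fun s => if s ≤ t0 then f s else g s) (if t ≤ t0 then f' t else g' t) t := by
  rcases lt_trichotomy t t0 with ht | ht | ht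
  · rw [if_pos ht.le]
    refine (hf t ht.le).congr_of_eventuallyEq ?_
    filter_upwards [Iio_mem_nhds ht] with s hs
    rw [if_pos (le_of_lt hs)]
  · subst ht
    rw [if_pos le_rfl]
    have h1 : HasDerivWithinAt (fun s => if s ≤ t then f s else g s) (f' t) (Iic t) t :=
      (hf t le_rfl).hasDerivWithinAt.congr (fun s hs => if_pos hs) (if_pos le_rfl)
    have h2 : HasDerivWithinAt (fun s => if s ≤ t then f s else g s) (f' t) (Ici t) t := by
      rw [h']
      refine (hg t le_rfl).hasDerivWithinAt.congr (fun s hs => ?_) ?_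
      · rcases eq_or_lt_of_le (show t ≤ s from hs) with e | e
        · rw [if_pos e.symm.le, ← e]; exact h
        · rw [if_neg (not_le.2 e)]
      · rw [if_pos le_rfl]; exact h
    have h3 := h1.union h2
    rw [Iic_union_Ici] at h3
    exact h3.hasDerivAt (Filter.univ_mem)
  · rw [if_neg (not_le.2 ht)]
    refine (hg t ht.le).congr_of_eventuallyEq ?_
    filter_upwards [Ioi_mem_nhds ht] with s hs
    rw [if_neg (not_le.2 hs)]

lemma smooth_of_system (m : ℝ) {a b R : ℝ → ℝ}
    (ha : ∀ t, HasDerivAt a (F1 (a t) (b t)) t)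
    (hb : ∀ t, HasDerivAt b (F2 m (a t) (b t) (R t)) t)
    (hR : ∀ t, HasDerivAt R (F3 m (a t) (b t) (R t)) t) :
    ContDiff ℝ ∞ a ∧ ContDiff ℝ ∞ b ∧ ContDiff ℝ ∞ R := by
  have key : ∀ n : ℕ, ContDiff ℝ n a ∧ ContDiff ℝ n b ∧ ContDiff ℝ n R := by
    intro n
    induction n with
    | zero =>
      simp only [Nat.cast_zero, contDiff_zero]
      exact ⟨continuous_iff_continuousAt.2 fun t => (ha t).continuousAt,
        continuous_iff_continuousAt.2 fun t => (hb t).continuousAt,
        continuous_iff_continuousAt.2 fun t => (hR t).continuousAt⟩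
    | succ n ih =>
      obtain ⟨ia, ib, iR⟩ := ih
      have ea : deriv a = fun t => F1 (a t) (b t) := funext fun t => (ha t).deriv
      have eb : deriv b = fun t => F2 m (a t) (b t) (R t) := funext fun t => (hb t).deriv
      have eR : deriv R = fun t => F3 m (a t) (b t) (R t) := funext fun t => (hR t).deriv
      push_cast
      refine ⟨contDiff_succ_iff_deriv.2 ⟨fun t => (ha t).differentiableAt, by simp, ?_⟩,
        contDiff_succ_iff_deriv.2 ⟨fun t => (hb t).differentiableAt, by simp, ?_⟩,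
        contDiff_succ_iff_deriv.2 ⟨fun t => (hR t).differentiableAt, by simp, ?_⟩⟩
      · rw [ea]; unfold F1; fun_prop
      · rw [eb]; unfold F2; fun_prop
      · rw [eR]; unfold F3; fun_prop
  exact ⟨contDiff_infty.2 fun n => (key n).1, contDiff_infty.2 fun n => (key n).2.1,
    contDiff_infty.2 fun n => (key n).2.2⟩

/-- the pointwise statement satisfied by the profile functions -/
def Good (m : ℝ) (α β γ : ℝ → ℝ) (q : ℝ) : Prop :=
  HasDerivAt α (α q * (β q - α q) / 2) q ∧
  (∃ b' c', HasDerivAt β b' q ∧ HasDerivAt γ c' q ∧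
    2 * (β q + q * b') = (1 + q * β q) * (α q - m * β q + (m + 3) / (m + 2) * γ q) ∧
    2 * (γ q + q * c') = q * γ q ^ 2 + γ q - (m - 1) * (1 + q * β q) * γ q
      + (m + 2) * α q * (1 + q * β q)) 

lemma Good.congr {m : ℝ} {α β γ α' β' γ' : ℝ → ℝ} {q : ℝ} (h : Good m α β γ q)
    (ha : α' =ᶠ[𝓝 q] α) (hb : β' =ᶠ[𝓝 q] β) (hc : γ' =ᶠ[𝓝 q] γ) : Good m α' β' γ' q := by
  obtain ⟨h1, b', c', h2, h3, h4, h5⟩ := h
  unfold Good
  rw [ha.self_of_nhds, hb.self_of_nhds, hc.self_of_nhds]
  exact ⟨h1.congr_of_eventuallyEq ha, b', c', h2.congr_of_eventuallyEq hb,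
    h3.congr_of_eventuallyEq hc, h4, h5⟩

/-- start point -/
lemma start (m : ℝ) (hm : 9 ≤ m) : ∃ q0 : ℝ, 0 < q0 ∧ q0 < 1 / rho m ∧ ∀ q, 0 ≤ q → q ≤ q0 →
    0 < ev (sA m) q ∧ 0 < 1 + q * ev (sB m) q ∧ 1 + q * ev (sB m) q ≤ 7 / 2 ∧
    q * ev (sA m) q ≤ 9 / 2 ∧ 0 ≤ ev (sC m) q ∧
    q * ev (sC m) q / (1 + q * ev (sB m) q) ≤ Gam m := by
  have hm0 : 0 < m := by linarith
  have hρ := rho_pos m hm0
  have h0 : |(0 : ℝ)| < 1 / rho m := by rw [abs_zero]; positivity
  have cA : ContinuousAt (ev (sA m)) 0 := ((bdA m (by linarith)).hasDerivAt hρ h0).continuousAt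
  have cB : ContinuousAt (ev (sB m)) 0 := ((bdB m (by linarith)).hasDerivAt hρ h0).continuousAt
  have cC : ContinuousAt (ev (sC m)) 0 := ((bdC m (by linarith)).hasDerivAt hρ h0).continuousAt
  have vA : ev (sA m) 0 = 1 := by
    obtain ⟨s, -, hs⟩ := (bdA m (by linarith)).hasSum_shift hρ h0
    rw [hs, zero_mul, add_zero, sA_zero]
  have vC : ev (sC m) 0 = (m + 2) / m := by
    obtain ⟨s, -, hs⟩ := (bdC m (by linarith)).hasSum_shift hρ h0
    rw [hs, zero_mul, add_zero, sC_zero]
  have c1 : ContinuousAt (fun q => 1 + q * ev (sB m) q) 0 :=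
    continuousAt_const.add (continuousAt_id.mul cB)
  have c2 : ContinuousAt (fun q => q * ev (sA m) q) 0 := continuousAt_id.mul cA
  have c3 : ContinuousAt (fun q => q * ev (sC m) q / (1 + q * ev (sB m) q)) 0 :=
    (continuousAt_id.mul cC).div c1 (by simp)
  have e1 : ∀ᶠ q in 𝓝 (0 : ℝ), 0 < ev (sA m) q :=
    cA.eventually (lt_mem_nhds (by rw [vA]; norm_num))
  have e2 : ∀ᶠ q in 𝓝 (0 : ℝ), 0 < 1 + q * ev (sB m) q :=
    c1.eventually (lt_mem_nhds (by simp))
  have e3 : ∀ᶠ q in 𝓝 (0 : ℝ), 1 + q * ev (sB m) q < 7 / 2 :=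
    c1.eventually (gt_mem_nhds (by simp only [zero_mul, add_zero]; norm_num))
  have e4 : ∀ᶠ q in 𝓝 (0 : ℝ), q * ev (sA m) q < 9 / 2 :=
    c2.eventually (gt_mem_nhds (by simp only [zero_mul]; norm_num))
  have e5 : ∀ᶠ q in 𝓝 (0 : ℝ), 0 < ev (sC m) q :=
    cC.eventually (lt_mem_nhds (by rw [vC]; positivity))
  have e6 : ∀ᶠ q in 𝓝 (0 : ℝ), q * ev (sC m) q / (1 + q * ev (sB m) q) < Gam m :=
    c3.eventually (gt_mem_nhds (by simp only [zero_mul, zero_div]; exact Gam_pos hm))
  obtain ⟨ε, hε, H⟩ := Metric.eventually_nhds_iff_ball.1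
    (e1.and (e2.and (e3.and (e4.and (e5.and e6)))))
  refine ⟨min (ε / 2) (1 / rho m / 2), by positivity, ?_, fun q hq0 hq1 => ?_⟩
  · refine lt_of_le_of_lt (min_le_right _ _) ?_
    have : 0 < 1 / rho m := by positivity
    linarith
  · have hq : q ∈ Metric.ball (0 : ℝ) ε := by
      rw [mem_ball_zero_iff, Real.norm_eq_abs, abs_of_nonneg hq0]
      have := hq1.trans (min_le_left _ _)
      linarith
    obtain ⟨h1, h2, h3, h4, h5, h6⟩ := H q hq
    exact ⟨h1, h2, h3.le, h4.le, h5.le, h6.le⟩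

theorem profile (m : ℝ) (hm : 9 ≤ m) : ∃ (δ : ℝ) (α β γ : ℝ → ℝ), 0 < δ ∧
    ContDiffOn ℝ ∞ α (Ioi (-δ)) ∧
    ∀ q, 0 ≤ q → Good m α β γ q ∧ 0 < α q ∧ 0 < 1 + q * β q := by
  have hm0 : 0 < m := by linarith
  have hm1 : 1 ≤ m := by linarith
  have hρ := rho_pos m hm0
  obtain ⟨q0, hq0, hq0r, hst⟩ := start m hm
  obtain ⟨hA, hB, hB', hA', hC, hC'⟩ := hst q0 hq0.le le_rfl
  set αs := ev (sA m) with hαs
  set βs := ev (sB m) with hβs
  set γs := ev (sC m) with hγs
  obtain ⟨a, b, R, ha0, hb0, hR0, hflow⟩ := flow_exists m hm (q0 * αs q0) (1 + q0 * βs q0)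
    (q0 * γs q0 / (1 + q0 * βs q0)) (by positivity) hA' hB hB'
    (div_nonneg (mul_nonneg hq0.le hC) hB.le) hC'
  set τ0 := Real.log q0 with hτ0
  have hexpτ0 : Real.exp τ0 = q0 := Real.exp_log hq0
  -- series side in the variable τ
  set aS : ℝ → ℝ := fun τ => Real.exp τ * αs (Real.exp τ) with haS
  set bS : ℝ → ℝ := fun τ => 1 + Real.exp τ * βs (Real.exp τ) with hbS
  set RS : ℝ → ℝ := fun τ => Real.exp τ * γs (Real.exp τ) / (1 + Real.exp τ * βs (Real.exp τ))
    with hRS
  have hle : ∀ τ, τ ≤ τ0 → Real.exp τ ≤ q0 := fun τ h => by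
    rw [← hexpτ0]; exact Real.exp_le_exp.2 h
  have habs : ∀ τ, τ ≤ τ0 → |Real.exp τ| < 1 / rho m := fun τ h => by
    rw [abs_of_pos (Real.exp_pos τ)]; exact (hle τ h).trans_lt hq0r
  have dS : ∀ τ, τ ≤ τ0 → HasDerivAt aS (F1 (aS τ) (bS τ)) τ ∧
      HasDerivAt bS (F2 m (aS τ) (bS τ) (RS τ)) τ ∧
      HasDerivAt RS (F3 m (aS τ) (bS τ) (RS τ)) τ := by
    intro τ hτ
    obtain ⟨h1, b', c', h2, h3, h4, h5⟩ := local_ode m hm1 (habs τ hτ)
    obtain ⟨p1, p2, -⟩ := hst (Real.exp τ) (Real.exp_pos τ).le (hle τ hτ)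
    have hexp := Real.hasDerivAt_exp τ
    have dα : HasDerivAt (fun τ => αs (Real.exp τ))
      (αs (Real.exp τ) * (βs (Real.exp τ) - αs (Real.exp τ)) / 2 * Real.exp τ) τ :=
      h1.comp τ hexp
    have dβ : HasDerivAt (fun τ => βs (Real.exp τ)) (b' * Real.exp τ) τ := h2.comp τ hexp
    have dγ : HasDerivAt (fun τ => γs (Real.exp τ)) (c' * Real.exp τ) τ := h3.comp τ hexp
    have db : HasDerivAt bS (Real.exp τ * βs (Real.exp τ) + Real.exp τ * (b' * Real.exp τ)) τ := by
      have := (hexp.mul dβ).const_add 1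
      exact this
    have dc : HasDerivAt (fun τ => Real.exp τ * γs (Real.exp τ))
      (Real.exp τ * γs (Real.exp τ) + Real.exp τ * (c' * Real.exp τ)) τ := hexp.mul dγ
    have dR : HasDerivAt RS (((Real.exp τ * γs (Real.exp τ) + Real.exp τ * (c' * Real.exp τ))
      * (1 + Real.exp τ * βs (Real.exp τ)) - (Real.exp τ * γs (Real.exp τ))
      * (Real.exp τ * βs (Real.exp τ) + Real.exp τ * (b' * Real.exp τ)))
      / (1 + Real.exp τ * βs (Real.exp τ)) ^ 2) τ := dc.div db p2.ne'
    rw [← hαs, ← hβs, ← hγs] at *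
    simp only [haS, hbS, hRS] at *
    set x := Real.exp τ with hx
    set A := αs x with hAx
    set B := βs x with hBx
    set C := γs x with hCx
    have hm2 : m + 2 ≠ 0 := by positivity
    refine ⟨?_, ?_, ?_⟩
    · have hd := hexp.mul dα
      refine hd.congr_deriv ?_
      unfold F1; ring
    · refine db.congr_deriv ?_
      unfold F2
      have e1 : x * C / (1 + x * B) * (1 + x * B) = x * C := by
        field_simp
      rw [e1]
      linear_combination (x / 2) * h4
    · refine dR.congr_deriv ?_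
      unfold F3
      have hb' : x * b' = (1 + x * B) * (A - m * B + (m + 3) / (m + 2) * C) / 2 - B := by
        linarith
      have hc' : x * c' = (x * C ^ 2 + C - (m - 1) * (1 + x * B) * C
        + (m + 2) * A * (1 + x * B)) / 2 - C := by linarith
      have e2 : x * (c' * x) = x * (x * c') := by ring
      have e3 : x * (b' * x) = x * (x * b') := by ring
      rw [e2, e3, hb', hc']
      have hne : 1 + x * B ≠ 0 := p2.ne'
      field_simp
      ring
  -- flow side
  have dF : ∀ τ, τ0 ≤ τ → HasDerivAt (fun s => a (s - τ0)) (F1 (a (τ - τ0)) (b (τ - τ0))) τ ∧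
      HasDerivAt (fun s => b (s - τ0)) (F2 m (a (τ - τ0)) (b (τ - τ0)) (R (τ - τ0))) τ ∧
      HasDerivAt (fun s => R (s - τ0)) (F3 m (a (τ - τ0)) (b (τ - τ0)) (R (τ - τ0))) τ := by
    intro τ hτ
    obtain ⟨-, -, h1, h2, h3⟩ := hflow (τ - τ0) (by linarith)
    have hs : HasDerivAt (fun s : ℝ => s - τ0) 1 τ := (hasDerivAt_id τ).sub_const τ0
    refine ⟨?_, ?_, ?_⟩
    · have := h1.comp τ hs
      rw [mul_one] at this; exact this
    · have := h2.comp τ hs
      rw [mul_one] at this; exact this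
    · have := h3.comp τ hs
      rw [mul_one] at this; exact this
  have ma : aS τ0 = a (τ0 - τ0) := by rw [sub_self, ha0, haS]; simp only [hexpτ0]
  have mb : bS τ0 = b (τ0 - τ0) := by rw [sub_self, hb0, hbS]; simp only [hexpτ0]
  have mR : RS τ0 = R (τ0 - τ0) := by rw [sub_self, hR0, hRS]; simp only [hexpτ0]
  set aG : ℝ → ℝ := fun s => if s ≤ τ0 then aS s else a (s - τ0) with haG
  set bG : ℝ → ℝ := fun s => if s ≤ τ0 then bS s else b (s - τ0) with hbG
  set RG : ℝ → ℝ := fun s => if s ≤ τ0 then RS s else R (s - τ0) with hRG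
  have da : ∀ t, HasDerivAt aG (F1 (aG t) (bG t)) t := by
    intro t
    have := glue (fun t ht => (dS t ht).1) (fun t ht => (dF t ht).1) ma (by rw [ma, mb]) t
    refine this.congr_deriv ?_
    simp only [haG, hbG]; split_ifs <;> rfl
  have db : ∀ t, HasDerivAt bG (F2 m (aG t) (bG t) (RG t)) t := by
    intro t
    have := glue (fun t ht => (dS t ht).2.1) (fun t ht => (dF t ht).2.1) mb (by rw [ma, mb, mR]) t
    refine this.congr_deriv ?_
    simp only [haG, hbG, hRG]; split_ifs <;> rfl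
  have dR : ∀ t, HasDerivAt RG (F3 m (aG t) (bG t) (RG t)) t := by
    intro t
    have := glue (fun t ht => (dS t ht).2.2) (fun t ht => (dF t ht).2.2) mR (by rw [ma, mb, mR]) t
    refine this.congr_deriv ?_
    simp only [haG, hbG, hRG]; split_ifs <;> rfl
  obtain ⟨sa, sb, sR⟩ := smooth_of_system m da db dR
  -- the profile functions
  set α : ℝ → ℝ := fun q => if q < q0 then αs q else aG (Real.log q) / q with hα
  set β : ℝ → ℝ := fun q => if q < q0 then βs q else (bG (Real.log q) - 1) / q with hβ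
  set γ : ℝ → ℝ := fun q => if q < q0 then γs q else RG (Real.log q) * bG (Real.log q) / q
    with hγ
  have log_le : ∀ q, 0 < q → q < q0 → Real.log q ≤ τ0 := fun q h1 h2 =>
    Real.log_le_log h1 h2.le
  have repα : ∀ q, 0 < q → α q = aG (Real.log q) / q := by
    intro q hq
    simp only [hα]
    split_ifs with h
    · simp only [haG]
      rw [if_pos (log_le q hq h)]
      simp only [haS]
      rw [Real.exp_log hq]; field_simp
    · rfl
  have repβ : ∀ q, 0 < q → β q = (bG (Real.log q) - 1) / q := by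
    intro q hq
    simp only [hβ]
    split_ifs with h
    · simp only [hbG]
      rw [if_pos (log_le q hq h)]
      simp only [hbS]
      rw [Real.exp_log hq]; field_simp; ring
    · rfl
  have repγ : ∀ q, 0 < q → γ q = RG (Real.log q) * bG (Real.log q) / q := by
    intro q hq
    simp only [hγ]
    split_ifs with h
    · simp only [hRG, hbG]
      rw [if_pos (log_le q hq h), if_pos (log_le q hq h)]
      simp only [hRS, hbS]
      rw [Real.exp_log hq]
      have : 1 + q * βs q ≠ 0 := (hst q hq.le h.le).2.1.ne'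
      field_simp
    · rfl
  have evα : ∀ q, q < q0 → α =ᶠ[𝓝 q] αs := fun q hq => by
    filter_upwards [Iio_mem_nhds hq] with x hx
    exact if_pos hx
  have evβ : ∀ q, q < q0 → β =ᶠ[𝓝 q] βs := fun q hq => by
    filter_upwards [Iio_mem_nhds hq] with x hx
    exact if_pos hx
  have evγ : ∀ q, q < q0 → γ =ᶠ[𝓝 q] γs := fun q hq => by
    filter_upwards [Iio_mem_nhds hq] with x hx
    exact if_pos hx
  refine ⟨1 / rho m, α, β, γ, by positivity, ?_, fun q hq => ?_⟩
  · intro q hq
    apply ContDiffAt.contDiffWithinAt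
    rcases lt_or_ge q q0 with h | h
    · have : |q| < 1 / rho m := by
        rw [abs_lt]; exact ⟨hq, h.trans hq0r⟩
      exact ((bdA m hm1).contDiffAt hρ this).congr_of_eventuallyEq (evα q h)
    · have hq' : 0 < q := hq0.trans_le h
      have e : α =ᶠ[𝓝 q] fun x => aG (Real.log x) / x := by
        filter_upwards [Ioi_mem_nhds hq'] with x hx
        exact repα x hx
      refine ContDiffAt.congr_of_eventuallyEq ?_ e
      exact (sa.contDiffAt.comp q (Real.contDiffAt_log.2 hq'.ne')).div contDiffAt_id hq'.ne'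
  · rcases lt_or_ge q q0 with h | h
    · obtain ⟨p1, p2, -⟩ := hst q hq h.le
      have habs : |q| < 1 / rho m := by
        rw [abs_of_nonneg hq]; exact h.trans hq0r
      have hg : Good m αs βs γs q := local_ode m hm1 habs
      refine ⟨hg.congr (evα q h) (evβ q h) (evγ q h), ?_, ?_⟩
      · rw [(evα q h).self_of_nhds]; exact p1
      · rw [(evβ q h).self_of_nhds]; exact p2
    · have hq' : 0 < q := hq0.trans_le h
      have eα : α =ᶠ[𝓝 q] fun x => aG (Real.log x) / x := by
        filter_upwards [Ioi_mem_nhds hq'] with x hx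
        exact repα x hx
      have eβ : β =ᶠ[𝓝 q] fun x => (bG (Real.log x) - 1) / x := by
        filter_upwards [Ioi_mem_nhds hq'] with x hx
        exact repβ x hx
      have eγ : γ =ᶠ[𝓝 q] fun x => RG (Real.log x) * bG (Real.log x) / x := by
        filter_upwards [Ioi_mem_nhds hq'] with x hx
        exact repγ x hx
      have hlog := Real.hasDerivAt_log hq'.ne'
      set τ := Real.log q with hτ
      have hττ0 : τ0 ≤ τ := Real.log_le_log hq0 h
      have posa : 0 < aG τ := by
        simp only [haG]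
        split_ifs with h1
        · simp only [haS]
          exact mul_pos (Real.exp_pos _) (hst _ (Real.exp_pos τ).le (hle τ h1)).1
        · exact (hflow (τ - τ0) (by linarith)).1
      have posb : 0 < bG τ := by
        simp only [hbG]
        split_ifs with h1
        · simp only [hbS]
          exact (hst _ (Real.exp_pos τ).le (hle τ h1)).2.1
        · exact (hflow (τ - τ0) (by linarith)).2.1
      have ca : HasDerivAt (fun x => aG (Real.log x)) (F1 (aG τ) (bG τ) * q⁻¹) q :=
        by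
          have h := HasDerivAt.comp q (da (Real.log q)) (Real.hasDerivAt_log hq'.ne')
          exact h
      have cb : HasDerivAt (fun x => bG (Real.log x)) (F2 m (aG τ) (bG τ) (RG τ) * q⁻¹) q :=
        by
          have h := HasDerivAt.comp q (db (Real.log q)) (Real.hasDerivAt_log hq'.ne')
          exact h
      have cR : HasDerivAt (fun x => RG (Real.log x)) (F3 m (aG τ) (bG τ) (RG τ) * q⁻¹) q :=
        by
          have h := HasDerivAt.comp q (dR (Real.log q)) (Real.hasDerivAt_log hq'.ne')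
          exact h
      have dα : HasDerivAt (fun x => aG (Real.log x) / x)
        ((F1 (aG τ) (bG τ) * q⁻¹ * q - aG τ * 1) / q ^ 2) q :=
        ca.div (hasDerivAt_id' q) hq'.ne'
      have dβ : HasDerivAt (fun x => (bG (Real.log x) - 1) / x)
        ((F2 m (aG τ) (bG τ) (RG τ) * q⁻¹ * q - (bG τ - 1) * 1) / q ^ 2) q :=
        (cb.sub_const 1).div (hasDerivAt_id' q) hq'.ne'
      have dγ : HasDerivAt (fun x => RG (Real.log x) * bG (Real.log x) / x)
        (((F3 m (aG τ) (bG τ) (RG τ) * q⁻¹ * bG τ + RG τ * (F2 m (aG τ) (bG τ) (RG τ) * q⁻¹)) * q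
          - RG τ * bG τ * 1) / q ^ 2) q :=
        (cR.mul cb).div (hasDerivAt_id' q) hq'.ne'
      have hG : Good m (fun x => aG (Real.log x) / x) (fun x => (bG (Real.log x) - 1) / x)
        (fun x => RG (Real.log x) * bG (Real.log x) / x) q := by
        refine ⟨?_, _, _, dβ, dγ, ?_, ?_⟩
        · refine dα.congr_deriv ?_
          simp only [← hτ]
          unfold F1
          field_simp
          ring
        · simp only [← hτ]
          unfold F2
          field_simp
          ring
        · simp only [← hτ]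
          unfold F2 F3
          field_simp
          ring
      refine ⟨hG.congr eα eβ eγ, ?_, ?_⟩
      · rw [eα.self_of_nhds]; positivity
      · rw [eβ.self_of_nhds]
        simp only [← hτ]
        have : 1 + q * ((bG τ - 1) / q) = bG τ := by field_simp; ring
        rw [this]; exact posb

end P252
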