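import Mathlib
import Vale.Agent.P252.Geometry
import Vale.Agent.P252.Glue

/-!
The Hessians of `u = √(t² + g(q))` and of its weight, and the affine maximal equation.
-/

namespace P252

open Matrix Finset

lemma am_identity (G t α β γ c' q ω P k : ℝ) (hG : G ≠ 0) (g e f h c D e2 f2 h2 c2 w1 α1 : ℝ)
    (hg : g = G ^ 2 - t ^ 2)
    (he : e = g / G ^ 3) (hf : f = -(t * α * g) / G ^ 3) (hh : h = α * g / G)
    (hc : c = g * α * (α + β) / G - α ^ 2 * g ^ 2 / G ^ 3)
    (hD : D = e * (h + c * q) - f ^ 2 * q)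
    (he2 : e2 = (k + 2) * ω * (P + k * t ^ 2 * P / G ^ 2))
    (hh2 : h2 = -ω * (γ * P * G ^ 2 + (k + 2) * α * t ^ 2 * P))
    (hf2 : f2 = -ω * (k + 2) * t * P * (γ + α * (2 + k * t ^ 2 / G ^ 2)))
    (hw1 : w1 = -((k + 2) * α + γ) * ω / 2) (hα1 : α1 = α * (β - α) / 2)
    (hc2 : c2 = -2 * (w1 * (γ * P * G ^ 2 + (k + 2) * α * t ^ 2 * P)
      + ω * (c' * P * G ^ 2 + γ * ((k + 2) * P * α * g / 2) + (k + 2) * α1 * t ^ 2 * P
        + (k + 2) * α * t ^ 2 * (k * P * α * g / (2 * G ^ 2))))) :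
    h * (h + c * q) * e2 + 2 * (-(f * h) * f2) * q + D * (k * h2 + c2 * q)
      + -(c * e - f ^ 2) * (h2 * q + c2 * q ^ 2)
      = (-(α * g ^ 2 * ω * P / G ^ 2)) * (2 * (γ + q * c') - (q * γ ^ 2 + γ
        - (k - 1) * (1 + q * β) * γ + (k + 2) * α * (1 + q * β))) := by
  subst hg he hf hh hc hD he2 hh2 hf2 hw1 hα1 hc2
  field_simp
  ring

/-- profile data -/
structure Prof (k : ℕ) (α β γ g : ℝ → ℝ) : Prop where
  good : ∀ q, 0 ≤ q → Good (k : ℝ) α β γ q
  apos : ∀ q, 0 ≤ q → 0 < α q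
  bpos : ∀ q, 0 ≤ q → 0 < 1 + q * β q
  gder : ∀ q, 0 ≤ q → HasDerivAt g (α q * g q) q
  gpos : ∀ q, 0 ≤ q → 0 < g q

/-- the solution as a function of `(t, q)` -/
noncomputable def GG (g : ℝ → ℝ) (t q : ℝ) : ℝ := Real.sqrt (t ^ 2 + g q)

section
variable {k : ℕ} {α β γ g : ℝ → ℝ} (H : Prof k α β γ g)
include H

lemma GG_pos {t q : ℝ} (hq : 0 ≤ q) : 0 < GG g t q := by
  unfold GG
  have := H.gpos q hq
  positivity

lemma GG_sq {t q : ℝ} (hq : 0 ≤ q) : GG g t q ^ 2 = t ^ 2 + g q := by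
  unfold GG
  have := H.gpos q hq
  exact Real.sq_sqrt (by positivity)

lemma dGG_t {t q : ℝ} (hq : 0 ≤ q) : HasDerivAt (fun t => GG g t q) (t / GG g t q) t := by
  have h0 := H.gpos q hq
  have h1 : HasDerivAt (fun t : ℝ => t ^ 2 + g q) (2 * t) t := by
    have := (hasDerivAt_pow 2 t).add_const (g q)
    refine this.congr_deriv (by norm_num)
  have h2 := h1.sqrt (by positivity)
  refine h2.congr_deriv ?_
  show 2 * t / (2 * GG g t q) = t / GG g t q
  have := (GG_pos H (t := t) hq).ne'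
  field_simp

lemma dGG_q {t q : ℝ} (hq : 0 ≤ q) :
    HasDerivAt (fun q => GG g t q) (α q * g q / (2 * GG g t q)) q := by
  have h0 := H.gpos q hq
  have h1 : HasDerivAt (fun q : ℝ => t ^ 2 + g q) (α q * g q) q := (H.gder q hq).const_add _
  exact h1.sqrt (by positivity)

/-- powers -/
lemma dP_t {t q : ℝ} (hq : 0 ≤ q) (l : ℕ) :
    HasDerivAt (fun t => GG g t q ^ l) (l * t * GG g t q ^ l / GG g t q ^ 2) t := by
  have h := (dGG_t H (t := t) hq).pow l
  refine h.congr_deriv ?_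
  have hG := (GG_pos H (t := t) hq).ne'
  rcases Nat.eq_zero_or_pos l with h0 | h0
  · subst h0; simp
  · obtain ⟨r, rfl⟩ : ∃ r, l = r + 1 := ⟨l - 1, by omega⟩
    rw [Nat.add_sub_cancel, pow_succ]
    field_simp

lemma dP_q {t q : ℝ} (hq : 0 ≤ q) (l : ℕ) :
    HasDerivAt (fun q => GG g t q ^ l)
      (l * GG g t q ^ l * α q * g q / (2 * GG g t q ^ 2)) q := by
  have h := (dGG_q H (t := t) hq).pow l
  refine h.congr_deriv ?_
  have hG := (GG_pos H (t := t) hq).ne'
  rcases Nat.eq_zero_or_pos l with h0 | h0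
  · subst h0; simp
  · obtain ⟨r, rfl⟩ : ∃ r, l = r + 1 := ⟨l - 1, by omega⟩
    rw [Nat.add_sub_cancel, pow_succ]
    field_simp

lemma dα {q : ℝ} (hq : 0 ≤ q) : HasDerivAt α (α q * (β q - α q) / 2) q := (H.good q hq).1

/-- the Hessian of `u` -/
theorem hess_u (x : Fin (k + 1) → ℝ) :
    hess (fun x : Fin (k + 1) → ℝ => GG g (x 0) (Q x)) x
      = arrow (g (Q x) / GG g (x 0) (Q x) ^ 3)
          (-(x 0 * α (Q x) * g (Q x)) / GG g (x 0) (Q x) ^ 3)
          (α (Q x) * g (Q x) / GG g (x 0) (Q x))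
          (g (Q x) * α (Q x) * (α (Q x) + β (Q x)) / GG g (x 0) (Q x)
            - α (Q x) ^ 2 * g (Q x) ^ 2 / GG g (x 0) (Q x) ^ 3) (fun i => x i.succ) := by
  have key := hess_eq_arrow (k := k) (fun t q => GG g t q) (fun t q => t / GG g t q)
    (fun t q => α q * g q / (2 * GG g t q)) (fun t q => g q / GG g t q ^ 3)
    (fun t q => -(t * α q * g q) / (2 * GG g t q ^ 3))
    (fun t q => g q * α q * (α q + β q) / (4 * GG g t q)
      - α q ^ 2 * g q ^ 2 / (4 * GG g t q ^ 3))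
    (fun t q hq => dGG_t H hq) (fun t q hq => dGG_q H hq)
    (fun t q hq => by
      have hG := (GG_pos H (t := t) hq).ne'
      have h2 := GG_sq H (t := t) hq
      have h := (hasDerivAt_id' t).div (dGG_t H (t := t) hq) hG
      refine h.congr_deriv ?_
      have hg : g q = GG g t q ^ 2 - t ^ 2 := by linarith
      rw [hg]
      field_simp)
    (fun t q hq => by
      have hG := (GG_pos H (t := t) hq).ne'
      have h := (hasDerivAt_const q t).div (dGG_q H (t := t) hq) hG
      refine h.congr_deriv ?_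
      field_simp
      ring)
    (fun t q hq => by
      have hG := (GG_pos H (t := t) hq).ne'
      have h := (hasDerivAt_const t (α q * g q)).div ((dGG_t H (t := t) hq).const_mul 2)
        (mul_ne_zero two_ne_zero hG)
      refine h.congr_deriv ?_
      field_simp
      ring)
    (fun t q hq => by
      have hG := (GG_pos H (t := t) hq).ne'
      have h := ((dα H hq).mul (H.gder q hq)).div ((dGG_q H (t := t) hq).const_mul 2)
        (mul_ne_zero two_ne_zero hG)
      refine h.congr_deriv ?_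
      simp only [Pi.mul_apply]
      field_simp
      ring) x
  rw [key]
  congr 1 <;> ring

/-- `Δ` -/
noncomputable def Del (k : ℕ) (α β g : ℝ → ℝ) (q : ℝ) : ℝ :=
  α q ^ k * g q ^ (k + 1) * (1 + q * β q)

/-- `ω = Δ^(-(k+2)/(k+3))` -/
noncomputable def om (k : ℕ) (α β g : ℝ → ℝ) (q : ℝ) : ℝ :=
  Del k α β g q ^ (-(((k : ℝ) + 2) / ((k : ℝ) + 3)))

lemma Del_pos {q : ℝ} (hq : 0 ≤ q) : 0 < Del k α β g q := by
  have h1 := H.apos q hq
  have h2 := H.bpos q hq
  have h3 := H.gpos q hq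
  unfold Del; positivity

lemma det_u (hk : 1 ≤ k) (x : Fin (k + 1) → ℝ) :
    (hess (fun x : Fin (k + 1) → ℝ => GG g (x 0) (Q x)) x).det
      = Del k α β g (Q x) / GG g (x 0) (Q x) ^ (k + 3) := by
  have hq := Q_nonneg x
  have h1 := H.apos _ hq
  have h2 := H.bpos _ hq
  have h3 := H.gpos _ hq
  have hG := GG_pos H (t := x 0) hq
  have hG2 := GG_sq H (t := x 0) hq
  rw [hess_u H x, arrow_det (q := Q x) _ _ _ _ _ hk rfl (by positivity)]
  set G := GG g (x 0) (Q x)
  set q := Q x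
  obtain ⟨l, rfl⟩ : ∃ l, k = l + 1 := ⟨k - 1, by omega⟩
  unfold Del
  rw [Nat.add_sub_cancel]
  have hgs : g q = G ^ 2 - x 0 ^ 2 := by linarith
  have e1 : g q / G ^ 3 * (α q * g q / G + (g q * α q * (α q + β q) / G
      - α q ^ 2 * g q ^ 2 / G ^ 3) * q) - (-(x 0 * α q * g q) / G ^ 3) ^ 2 * q
      = α q * g q ^ 2 / G ^ 4 * (1 + q * β q) := by
    rw [hgs]; field_simp; ring
  rw [e1, div_pow, mul_pow]
  have e2 : G ^ (l + 1 + 3) = G ^ l * G ^ 4 := by ring
  rw [e2]
  field_simp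
  ring

lemma weight_u (hk : 1 ≤ k) :
    weight (fun x : Fin (k + 1) → ℝ => GG g (x 0) (Q x))
      = fun x => om k α β g (Q x) * GG g (x 0) (Q x) ^ (k + 2) := by
  funext x
  have hq := Q_nonneg x
  have hG := GG_pos H (t := x 0) hq
  have hD := Del_pos H hq
  unfold weight om
  rw [det_u H hk x]
  set G := GG g (x 0) (Q x)
  set D := Del k α β g (Q x)
  have hcast : ((((k + 1 : ℕ) : ℝ) + 1) / (((k + 1 : ℕ) : ℝ) + 2))
      = ((k : ℝ) + 2) / ((k : ℝ) + 3) := by
    push_cast; congr 1 <;> ring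
  rw [hcast, Real.div_rpow hD.le (by positivity), Real.rpow_neg (by positivity : 0 ≤ G ^ (k + 3)),
    div_inv_eq_mul, ← Real.rpow_natCast G (k + 3), ← Real.rpow_mul hG.le]
  have e : ((k + 3 : ℕ) : ℝ) * (((k : ℝ) + 2) / ((k : ℝ) + 3)) = ((k + 2 : ℕ) : ℝ) := by
    have : (k : ℝ) + 3 ≠ 0 := by positivity
    push_cast; field_simp
  rw [e, Real.rpow_natCast]

lemma dom {q : ℝ} (hq : 0 ≤ q) :
    HasDerivAt (om k α β g) (-(((k : ℝ) + 2) * α q + γ q) * om k α β g q / 2) q := by
  obtain ⟨h1, b', c', h2, h3, h4, h5⟩ := H.good q hq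
  have hα := H.apos q hq
  have hβ := H.bpos q hq
  have hg := H.gpos q hq
  have hD := Del_pos H hq
  have dD : HasDerivAt (Del k α β g) (((((k : ℝ) + 3) * α q
      + ((k : ℝ) + 3) / ((k : ℝ) + 2) * γ q) / 2) * Del k α β g q) q := by
    have h6 := ((h1.pow k).mul ((H.gder q hq).pow (k + 1))).mul
      (((hasDerivAt_id' q).mul h2).const_add 1)
    refine h6.congr_deriv ?_
    unfold Del
    have hb : q * b' = (1 + q * β q) * (α q - k * β q + (k + 3) / (k + 2) * γ q) / 2 - β q := by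
      linarith
    simp only [Pi.mul_apply, Pi.pow_apply]
    rw [hb]
    rcases Nat.eq_zero_or_pos k with h0 | h0
    · subst h0
      simp
      ring
    · obtain ⟨r, rfl⟩ : ∃ r, k = r + 1 := ⟨k - 1, by omega⟩
      simp only [Nat.add_sub_cancel]
      push_cast
      ring
  have h7 := dD.rpow_const (p := -(((k : ℝ) + 2) / ((k : ℝ) + 3))) (Or.inl hD.ne')
  refine h7.congr_deriv ?_
  unfold om
  rw [Real.rpow_sub_one hD.ne']
  have hk3 : (k : ℝ) + 3 ≠ 0 := by positivity
  have hk2 : (k : ℝ) + 2 ≠ 0 := by positivity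
  set DD := Del k α β g q
  set W := DD ^ (-(((k : ℝ) + 2) / ((k : ℝ) + 3)))
  field_simp
  try ring

/-- Hessian of the weight -/
theorem hess_w (c : ℝ → ℝ) (hc : ∀ q, 0 ≤ q → HasDerivAt γ (c q) q) (x : Fin (k + 1) → ℝ) :
    hess (fun x : Fin (k + 1) → ℝ => om k α β g (Q x) * GG g (x 0) (Q x) ^ (k + 2)) x
      = arrow ((k + 2) * om k α β g (Q x) * (GG g (x 0) (Q x) ^ k
            + k * x 0 ^ 2 * GG g (x 0) (Q x) ^ k / GG g (x 0) (Q x) ^ 2))
          (-om k α β g (Q x) * (k + 2) * x 0 * GG g (x 0) (Q x) ^ k * (γ (Q x) + α (Q x) *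
            (2 + k * x 0 ^ 2 / GG g (x 0) (Q x) ^ 2)))
          (-om k α β g (Q x) * (γ (Q x) * GG g (x 0) (Q x) ^ k * GG g (x 0) (Q x) ^ 2
            + (k + 2) * α (Q x) * x 0 ^ 2 * GG g (x 0) (Q x) ^ k))
          (-2 * (-(((k : ℝ) + 2) * α (Q x) + γ (Q x)) * om k α β g (Q x) / 2 *
            (γ (Q x) * GG g (x 0) (Q x) ^ k * GG g (x 0) (Q x) ^ 2
              + (k + 2) * α (Q x) * x 0 ^ 2 * GG g (x 0) (Q x) ^ k)
            + om k α β g (Q x) * (c (Q x) * GG g (x 0) (Q x) ^ k * GG g (x 0) (Q x) ^ 2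
              + γ (Q x) * ((k + 2) * GG g (x 0) (Q x) ^ k * α (Q x) * g (Q x) / 2)
              + (k + 2) * (α (Q x) * (β (Q x) - α (Q x)) / 2) * x 0 ^ 2 * GG g (x 0) (Q x) ^ k
              + (k + 2) * α (Q x) * x 0 ^ 2 * (k * GG g (x 0) (Q x) ^ k * α (Q x) * g (Q x)
                / (2 * GG g (x 0) (Q x) ^ 2)))))
          (fun i => x i.succ) := by
  have key := hess_eq_arrow (k := k) (fun t q => om k α β g q * GG g t q ^ (k + 2))
    (fun t q => om k α β g q * ((k + 2) * t * GG g t q ^ k))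
    (fun t q => -(om k α β g q * (γ q * (GG g t q ^ k * GG g t q ^ 2)
      + (k + 2) * α q * t ^ 2 * GG g t q ^ k)) / 2)
    (fun t q => (k + 2) * om k α β g q * (GG g t q ^ k + k * t ^ 2 * GG g t q ^ k / GG g t q ^ 2))
    (fun t q => -(om k α β g q * (k + 2) * t * GG g t q ^ k * (γ q + α q *
            (2 + k * t ^ 2 / GG g t q ^ 2))) / 2)
    (fun t q => -(-(((k : ℝ) + 2) * α q + γ q) * om k α β g q / 2 *
            (γ q * GG g t q ^ k * GG g t q ^ 2
              + (k + 2) * α q * t ^ 2 * GG g t q ^ k)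
            + om k α β g q * (c q * GG g t q ^ k * GG g t q ^ 2
              + γ q * ((k + 2) * GG g t q ^ k * α q * g q / 2)
              + (k + 2) * (α q * (β q - α q) / 2) * t ^ 2 * GG g t q ^ k
              + (k + 2) * α q * t ^ 2 * (k * GG g t q ^ k * α q * g q
                / (2 * GG g t q ^ 2)))) / 2)
    (fun t q hq => by
      have hG := (GG_pos H (t := t) hq).ne'
      have h := (dP_t H (t := t) hq (k + 2)).const_mul (om k α β g q)
      refine h.congr_deriv ?_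
      rw [pow_add (GG g t q) k 2]; push_cast
      field_simp)
    (fun t q hq => by
      have hG := (GG_pos H (t := t) hq).ne'
      have h2 := GG_sq H (t := t) hq
      have h := (dom H hq).mul (dP_q H (t := t) hq (k + 2))
      refine h.congr_deriv ?_
      have hg : g q = GG g t q ^ 2 - t ^ 2 := by linarith
      rw [hg, pow_add (GG g t q) k 2]; push_cast
      field_simp
      ring)
    (fun t q hq => by
      have hG := (GG_pos H (t := t) hq).ne'
      have h := (((hasDerivAt_id' t).const_mul ((k : ℝ) + 2)).mul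
        (dP_t H (t := t) hq k)).const_mul (om k α β g q)
      refine h.congr_deriv ?_
      field_simp)
    (fun t q hq => by
      have hG := (GG_pos H (t := t) hq).ne'
      have h2 := GG_sq H (t := t) hq
      have h := (dom H hq).mul ((dP_q H (t := t) hq k).const_mul (((k : ℝ) + 2) * t))
      refine h.congr_deriv ?_
      have hg : g q = GG g t q ^ 2 - t ^ 2 := by linarith
      rw [hg]
      field_simp
      ring)
    (fun t q hq => by
      have hG := (GG_pos H (t := t) hq).ne'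
      have h := ((((dP_t H (t := t) hq k).mul (dP_t H (t := t) hq 2)).const_mul (γ q)).add
        (((hasDerivAt_pow 2 t).const_mul (((k : ℝ) + 2) * α q)).mul
          (dP_t H (t := t) hq k))).const_mul (om k α β g q)
      have h' := h.neg.div_const 2
      refine h'.congr_deriv ?_
      push_cast
      field_simp)
    (fun t q hq => by
      have hG := (GG_pos H (t := t) hq).ne'
      have h := (dom H hq).mul (((hc q hq).mul ((dP_q H (t := t) hq k).mul
        (dP_q H (t := t) hq 2))).add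
        ((((dα H hq).const_mul ((k : ℝ) + 2)).mul_const (t ^ 2)).mul
          (dP_q H (t := t) hq k)))
      have h' := h.neg.div_const 2
      refine h'.congr_deriv ?_
      simp only [Pi.mul_apply, Pi.add_apply]
      push_cast
      field_simp
      ring) x
  rw [key]
  congr 1 <;> ring

/-- the affine maximal equation -/
theorem solves (hk : 1 ≤ k) : SolvesAM (fun x : Fin (k + 1) → ℝ => GG g (x 0) (Q x)) := by
  intro x
  have hq := Q_nonneg x
  have h1 := H.apos _ hq
  have h2 := H.bpos _ hq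
  have h3 := H.gpos _ hq
  have hG := GG_pos H (t := x 0) hq
  have hG2 := GG_sq H (t := x 0) hq
  have hex : ∀ q, ∃ c, 0 ≤ q → HasDerivAt γ c q ∧
      2 * (γ q + q * c) = q * γ q ^ 2 + γ q - ((k : ℝ) - 1) * (1 + q * β q) * γ q
      + ((k : ℝ) + 2) * α q * (1 + q * β q) := by
    intro q
    by_cases hq : 0 ≤ q
    · obtain ⟨-, b', c', -, h3, -, h5⟩ := H.good q hq
      exact ⟨c', fun _ => ⟨h3, h5⟩⟩
    · exact ⟨0, fun h => absurd h hq⟩
  choose c hc using hex
  rw [weight_u H hk, hess_w H c (fun q hq => (hc q hq).1) x]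
  have hode := (hc (Q x) hq).2
  have hgs : g (Q x) = GG g (x 0) (Q x) ^ 2 - x 0 ^ 2 := by linarith
  set G := GG g (x 0) (Q x) with hGdef
  set q := Q x with hqdef
  set e := g q / G ^ 3 with he
  set f := -(x 0 * α q * g q) / G ^ 3 with hf
  set h := α q * g q / G with hh
  set cc := g q * α q * (α q + β q) / G - α q ^ 2 * g q ^ 2 / G ^ 3 with hcc
  have hD1 : e * (h + cc * q) - f ^ 2 * q = α q * g q ^ 2 / G ^ 4 * (1 + q * β q) := by
    rw [he, hf, hh, hcc, hgs]; field_simp; ring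
  have hD : e * (h + cc * q) - f ^ 2 * q ≠ 0 := by
    rw [hD1]; positivity
  have hh0 : h ≠ 0 := by rw [hh]; positivity
  have hinv : (hess (fun x : Fin (k + 1) → ℝ => GG g (x 0) (Q x)) x)⁻¹
      = (h * (e * (h + cc * q) - f ^ 2 * q))⁻¹ •
      arrow (h * (h + cc * q)) (-(f * h)) (e * (h + cc * q) - f ^ 2 * q) (-(cc * e - f ^ 2))
        (fun i => x i.succ) := by
    rw [hess_u H x]
    exact arrow_inv e f h cc _ rfl hh0 hD
  rw [hinv]
  set dd := (hess (fun x : Fin (k + 1) → ℝ => GG g (x 0) (Q x)) x).det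
  set W := arrow ((k + 2) * om k α β g q * (G ^ k
            + k * x 0 ^ 2 * G ^ k / G ^ 2))
          (-om k α β g q * (k + 2) * x 0 * G ^ k * (γ q + α q *
            (2 + k * x 0 ^ 2 / G ^ 2)))
          (-om k α β g q * (γ q * G ^ k * G ^ 2
            + (k + 2) * α q * x 0 ^ 2 * G ^ k))
          (-2 * (-(((k : ℝ) + 2) * α q + γ q) * om k α β g q / 2 *
            (γ q * G ^ k * G ^ 2
              + (k + 2) * α q * x 0 ^ 2 * G ^ k)
            + om k α β g q * (c q * G ^ k * G ^ 2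
              + γ q * ((k + 2) * G ^ k * α q * g q / 2)
              + (k + 2) * (α q * (β q - α q) / 2) * x 0 ^ 2 * G ^ k
              + (k + 2) * α q * x 0 ^ 2 * (k * G ^ k * α q * g q
                / (2 * G ^ 2)))))
          (fun i => x i.succ) with hW
  have hfac : ∀ i j, dd * ((h * (e * (h + cc * q) - f ^ 2 * q))⁻¹ •
      arrow (h * (h + cc * q)) (-(f * h)) (e * (h + cc * q) - f ^ 2 * q) (-(cc * e - f ^ 2))
        (fun i => x i.succ)) i j * W i j = dd * (h * (e * (h + cc * q) - f ^ 2 * q))⁻¹ *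
      (arrow (h * (h + cc * q)) (-(f * h)) (e * (h + cc * q) - f ^ 2 * q) (-(cc * e - f ^ 2))
        (fun i => x i.succ) i j * W i j) := by
    intro i j
    rw [Matrix.smul_apply, smul_eq_mul]; ring
  rw [Finset.sum_congr rfl fun i _ => Finset.sum_congr rfl fun j _ => hfac i j]
  simp only [← Finset.mul_sum]
  rw [hW, arrow_sum (q := q) _ _ _ _ _ rfl]
  rw [am_identity G (x 0) (α q) (β q) (γ q) (c q) q (om k α β g q) (G ^ k) k hG.ne' (g q) e f h cc
    (e * (h + cc * q) - f ^ 2 * q) _ _ _ _ (-(((k : ℝ) + 2) * α q + γ q) * om k α β g q / 2)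
    (α q * (β q - α q) / 2) hgs rfl rfl rfl rfl rfl rfl rfl rfl rfl rfl rfl]
  rw [hode, sub_self, mul_zero, mul_zero]

end

end P252
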