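import Mathlib
import Vale.Agent.P252.PDE

/-!
Assembly of the counterexample.
-/

namespace P252

open Set Matrix
open scoped ContDiff Topology

lemma posDef_u {k : ℕ} {α β γ g : ℝ → ℝ} (H : Prof k α β γ g) (x : Fin (k + 1) → ℝ) :
    (hess (fun x : Fin (k + 1) → ℝ => GG g (x 0) (Q x)) x).PosDef := by
  have hq := Q_nonneg x
  have h1 := H.apos _ hq
  have h2 := H.bpos _ hq
  have h3 := H.gpos _ hq
  have hG := GG_pos H (t := x 0) hq
  have hG2 := GG_sq H (t := x 0) hq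
  rw [hess_u H x]
  refine arrow_posDef (q := Q x) _ _ _ _ _ rfl (by positivity) (by positivity) ?_
  have hgs : g (Q x) = GG g (x 0) (Q x) ^ 2 - x 0 ^ 2 := by linarith
  set G := GG g (x 0) (Q x)
  set q := Q x
  have e1 : g q / G ^ 3 * (α q * g q / G + (g q * α q * (α q + β q) / G
      - α q ^ 2 * g q ^ 2 / G ^ 3) * q) - (-(x 0 * α q * g q) / G ^ 3) ^ 2 * q
      = α q * g q ^ 2 / G ^ 4 * (1 + q * β q) := by
    rw [hgs]; field_simp; ring
  rw [e1]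
  positivity

lemma exists_g {α : ℝ → ℝ} {δ : ℝ} (hδ : 0 < δ) (hα : ContDiffOn ℝ ∞ α (Ioi (-δ))) :
    ∃ g : ℝ → ℝ, g 0 = 1 ∧ (∀ q, 0 < g q) ∧ ContDiffOn ℝ ∞ g (Ioi (-δ)) ∧
      ∀ q, -δ < q → HasDerivAt g (α q * g q) q := by
  set I : ℝ → ℝ := fun q => ∫ s in (0 : ℝ)..q, α s with hI
  have hcont : ContinuousOn α (Ioi (-δ)) := hα.continuousOn
  have hdI : ∀ q, -δ < q → HasDerivAt I (α q) q := by
    intro q hq
    have hsub : uIcc 0 q ⊆ Ioi (-δ) := by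
      intro s hs
      have h1 := hs.1
      have h2 : -δ < min 0 q := lt_min (by linarith) hq
      exact lt_of_lt_of_le h2 h1
    refine intervalIntegral.integral_hasDerivAt_right ((hcont.mono hsub).intervalIntegrable) ?_
      (hcont.continuousAt (Ioi_mem_nhds hq))
    exact hcont.stronglyMeasurableAtFilter isOpen_Ioi q hq
  have hsI : ContDiffOn ℝ ∞ I (Ioi (-δ)) := by
    rw [contDiffOn_infty_iff_deriv_of_isOpen isOpen_Ioi]
    refine ⟨fun q hq => (hdI q hq).differentiableAt.differentiableWithinAt, ?_⟩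
    exact hα.congr (fun q hq => (hdI q hq).deriv)
  refine ⟨fun q => Real.exp (I q), ?_, fun q => Real.exp_pos _, hsI.exp, fun q hq => ?_⟩
  · simp [hI]
  · have := (hdI q hq).exp
    refine this.congr_deriv (by ring)

lemma smooth_u {k : ℕ} {g : ℝ → ℝ} {δ : ℝ} (hδ : 0 < δ) (hg : ContDiffOn ℝ ∞ g (Ioi (-δ)))
    (hpos : ∀ q, 0 < g q) :
    ContDiff ℝ ∞ (fun x : Fin (k + 1) → ℝ => GG g (x 0) (Q x)) := by
  unfold GG
  have hQ : ContDiff ℝ ∞ (fun x : Fin (k + 1) → ℝ => Q x) := by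
    unfold Q
    exact ContDiff.sum fun i _ => (contDiff_apply ℝ ℝ (i.succ)).pow 2
  have h1 : ContDiff ℝ ∞ (fun x : Fin (k + 1) → ℝ => g (Q x)) := by
    rw [contDiff_iff_contDiffAt]
    intro x
    have h2 : ContDiffAt ℝ ∞ g (Q x) :=
      hg.contDiffAt (Ioi_mem_nhds (by linarith [Q_nonneg x]))
    exact h2.comp x hQ.contDiffAt
  have h3 : ContDiff ℝ ∞ (fun x : Fin (k + 1) → ℝ => x 0 ^ 2) := (contDiff_apply ℝ ℝ 0).pow 2
  refine (h3.add h1).sqrt (fun x => ?_)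
  have := hpos (Q x)
  positivity

lemma not_quadratic {k : ℕ} {g : ℝ → ℝ} (hg : g 0 = 1) :
    ¬ IsQuadratic (fun x : Fin (k + 1) → ℝ => GG g (x 0) (Q x)) := by
  rintro ⟨A, b, c, h⟩
  -- evaluate on the axis
  have hv : ∀ s : ℝ, Real.sqrt (s ^ 2 + 1) = 1 / 2 * (s ^ 2 * A 0 0) + s * b 0 + c := by
    intro s
    have h0 := h (s • (Pi.single 0 1 : Fin (k + 1) → ℝ))
    have e1 : Q (s • (Pi.single 0 1 : Fin (k + 1) → ℝ)) = 0 := by
      unfold Q
      refine Finset.sum_eq_zero fun i _ => ?_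
      simp
    have e2 : (s • (Pi.single 0 1 : Fin (k + 1) → ℝ)) 0 = s := by simp
    simp only [e1, e2, GG, hg] at h0
    rw [h0]
    simp [Matrix.mulVec_smul]
    ring
  have h0 := hv 0
  have h1 := hv 1
  have h2 := hv (-1)
  have h3 := hv 2
  norm_num at h0 h1 h2 h3
  have hs2 : Real.sqrt 2 ^ 2 = 2 := Real.sq_sqrt (by norm_num)
  have hs5 : Real.sqrt 5 ^ 2 = 5 := Real.sq_sqrt (by norm_num)
  have hc : c = 1 := by linarith
  have key : Real.sqrt 5 = 4 * Real.sqrt 2 - 3 := by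
    rw [h3]; linarith
  have h6 : Real.sqrt 5 ^ 2 = (4 * Real.sqrt 2 - 3) ^ 2 := by rw [key]
  have h7 : Real.sqrt 2 = 3 / 2 := by nlinarith
  rw [h7] at hs2
  norm_num at hs2

theorem counterexample (n : ℕ) (hn : 10 ≤ n) :
    ∃ u : (Fin n → ℝ) → ℝ, ContDiff ℝ ∞ u ∧ (∀ x, (hess u x).PosDef) ∧ SolvesAM u ∧
      ¬ IsQuadratic u := by
  obtain ⟨k, rfl⟩ : ∃ k, n = k + 1 := ⟨n - 1, by omega⟩
  have hk : 9 ≤ k := by omega
  have hk' : (9 : ℝ) ≤ (k : ℝ) := by exact_mod_cast hk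
  obtain ⟨δ, α, β, γ, hδ, hα, hq⟩ := profile (k : ℝ) hk'
  obtain ⟨g, g0, gpos, gsm, gder⟩ := exists_g hδ hα
  have H : Prof k α β γ g :=
    ⟨fun q h => (hq q h).1, fun q h => (hq q h).2.1, fun q h => (hq q h).2.2,
      fun q h => gder q (by linarith), fun q _ => gpos q⟩
  exact ⟨fun x => GG g (x 0) (Q x), smooth_u hδ gsm gpos, posDef_u H, solves H (by omega),
    not_quadratic g0⟩

end P252
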